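import Claimed.Agent.R117.Op235

/-!
# Row 117, chain "crux => S0235".  Algebra: from an integral identity to the block matrix.

* `exists_integral_data` : in any ring, `X N C = ℓ + p W`, `gcd (p, ℓ) = 1` gives `q = p ^ φ(ℓ) = 1 + c ℓ` and
  `X' C' δ₀` with `q δ₀ + c X' N C' = 1`.
* `mainStatement_of_integral_data` : with `N = ∑_{g ∈ H} g` (`N² = ℓ N`), the matrix
  `A = [[1 + c N, C'], [X', X' C' + δ₀]] ∈ M_{2k}(ℤ[G])` is `L * diag (1 + c N, 1 / q) * U` over `ℚ[G]`;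
  `mainStatement_of_LDU` applies (`fkDet = q ^ (k / ℓ - k)`).
No gap in this file.
-/

set_option autoImplicit false

namespace Claimed.Agent.R117

open Claims.C0199.GroupRingDeterminant

/-- Number theory + Hensel step, in an arbitrary ring: from `X N C = ℓ + p W` to
`q δ₀ + c X' N C' = 1` with `q = p ^ e = 1 + c ℓ > 1`. -/
theorem exists_integral_data {R : Type*} [Ring R] (X Nn C W : R) (p ℓ : ℕ) (hp : p.Prime) (hℓ : 0 < ℓ)
    (hcop : Nat.Coprime p ℓ) (h : X * Nn * C = (ℓ : ℤ) • (1 : R) + (p : ℤ) • W) :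
    ∃ (q c : ℕ) (X' C' δ₀ : R), 1 < q ∧ q = 1 + c * ℓ ∧
      (q : ℤ) • δ₀ + (c : ℤ) • (X' * Nn * C') = 1 := by
  set e := Nat.totient ℓ with he
  have he0 : 0 < e := Nat.totient_pos.mpr hℓ
  set q := p ^ e with hq
  have hq1 : 1 < q := Nat.one_lt_pow he0.ne' hp.one_lt
  have hmod : q ≡ 1 [MOD ℓ] := Nat.ModEq.pow_totient hcop
  have hdvd : ℓ ∣ q - 1 := (Nat.modEq_iff_dvd' hq1.le).mp hmod.symm
  obtain ⟨c, hc⟩ := hdvd
  have hqc : q = 1 + c * ℓ := by
    have : q = 1 + (q - 1) := by omega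
    rw [this, hc, mul_comm]
  -- Bezout
  have hcop1 : IsCoprime ((c : ℤ) * (ℓ : ℤ)) (q : ℤ) := by
    refine ⟨-1, 1, ?_⟩
    have : (q : ℤ) = 1 + (c : ℤ) * (ℓ : ℤ) := by exact_mod_cast hqc
    rw [this]; ring
  have hcop2 : IsCoprime ((c : ℤ) * (ℓ : ℤ) ^ e) (q : ℤ) :=
    IsCoprime.mul_left hcop1.of_mul_left_left (IsCoprime.pow_left hcop1.of_mul_left_right)
  obtain ⟨u, t, hut⟩ := hcop2
  -- geometric sum
  set x : R := ((ℓ : ℤ) : R) with hx
  set y : R := ((p : ℤ) : R) * (-W) with hy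
  have hxy : Commute x y := Int.cast_commute _ _
  set Ξ : R := ∑ i ∈ Finset.range e, x ^ i * y ^ (e - 1 - i) with hΞ
  have hgeom : (x - y) * Ξ = x ^ e - y ^ e := hxy.mul_geom_sum₂ e
  have hXNC : X * Nn * C = x - y := by
    rw [h, hx, hy, zsmul_eq_mul, zsmul_eq_mul, mul_one, mul_neg, sub_neg_eq_add]
  have hye : y ^ e = (q : ℤ) • (-W) ^ e := by
    rw [hy, (Int.cast_commute _ _).mul_pow, zsmul_eq_mul, hq]
    push_cast
    rfl
  have hxe : x ^ e = ((ℓ : ℤ) ^ e) • (1 : R) := by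
    rw [hx, zsmul_eq_mul, mul_one]; push_cast; rfl
  refine ⟨q, c, u • X, C * Ξ, t • (1 : R) + ((c : ℤ) * u) • (-W) ^ e, hq1, hqc, ?_⟩
  have e1 : (u • X) * Nn * (C * Ξ) = u • ((X * Nn * C) * Ξ) := by
    rw [smul_mul_assoc, smul_mul_assoc]
    congr 1
    noncomm_ring
  rw [e1, hXNC, hgeom, hxe, hye]
  have : (1 : R) = (u * ((c : ℤ) * (ℓ : ℤ) ^ e) + t * (q : ℤ)) • (1 : R) := by rw [hut, one_smul]
  conv_rhs => rw [this]
  module
theorem P_mul_P' {R : Type*} [Ring R] [Algebra ℚ R] (Nn : R) (ℓ c q : ℕ)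
    (hN : Nn * Nn = (ℓ : ℚ) • Nn) (hq : q = 1 + c * ℓ) :
    (1 + (c : ℚ) • Nn) * (1 - ((c : ℚ) / q) • Nn) = 1 ∧
      (1 - ((c : ℚ) / q) • Nn) * (1 + (c : ℚ) • Nn) = 1 := by
  have hq0 : (q : ℚ) ≠ 0 := by
    have : 0 < q := by omega
    exact_mod_cast this.ne'
  have hqq : (q : ℚ) = 1 + c * ℓ := by exact_mod_cast hq
  have hz : (c : ℚ) - (c : ℚ) / q - (c : ℚ) * ((c : ℚ) / q) * ℓ = 0 := by
    field_simp
    rw [hqq]; ring
  constructor
  · have : (1 + (c : ℚ) • Nn) * (1 - ((c : ℚ) / q) • Nn)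
        = 1 + ((c : ℚ) - (c : ℚ) / q - (c : ℚ) * ((c : ℚ) / q) * ℓ) • Nn := by
      rw [add_mul, mul_sub, mul_sub, one_mul, one_mul, mul_one, smul_mul_smul_comm, hN, smul_smul]
      module
    rw [this, hz, zero_smul, add_zero]
  · have : (1 - ((c : ℚ) / q) • Nn) * (1 + (c : ℚ) • Nn)
        = 1 + ((c : ℚ) - (c : ℚ) / q - (c : ℚ) * ((c : ℚ) / q) * ℓ) • Nn := by
      rw [sub_mul, mul_add, mul_add, one_mul, one_mul, mul_one, smul_mul_smul_comm, hN, smul_smul]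
      module
    rw [this, hz, zero_smul, add_zero]

theorem schur_identity {R : Type*} [Ring R] [Algebra ℚ R] (Nn X C d : R) (c q : ℕ) (hq : 0 < q)
    (h : (q : ℚ) • d + (c : ℚ) • (X * Nn * C) = 1) :
    X * (1 - ((c : ℚ) / q) • Nn) * C + (q : ℚ)⁻¹ • (1 : R) = X * C + d := by
  have hq0 : (q : ℚ) ≠ 0 := by exact_mod_cast hq.ne'
  have e1 : X * (1 - ((c : ℚ) / q) • Nn) * C = X * C - ((c : ℚ) / q) • (X * Nn * C) := by
    rw [mul_sub, mul_one, sub_mul, mul_smul_comm, smul_mul_assoc]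
  have e2 : d = (q : ℚ)⁻¹ • (1 : R) - ((c : ℚ) / q) • (X * Nn * C) := by
    rw [← h, smul_add, smul_smul, smul_smul, inv_mul_cancel₀ hq0, one_smul, div_eq_inv_mul]
    abel
  rw [e1]
  conv_rhs => rw [e2]
  abel
variable {G : Type} [Group G]

/-- `mainStatement_of_LDU` for an arbitrary finite index type. -/
theorem mainStatement_of_LDU_index [Group.FG G] {ι : Type} [Fintype ι] [DecidableEq ι] [Nonempty ι]
    (A : Matrix ι ι (MonoidAlgebra ℤ G))
    (B₁ B₂ E₂ E₃ : Matrix ι ι (MonoidAlgebra ℚ G)) (q : ℚ) (hq : 1 < q)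
    (hB₁ : B₁ * B₁ = 0) (hB₂ : B₂ * B₂ = 0) (htB₁ : ∑ i, (B₁ i i).coeff 1 = 0)
    (htB₂ : ∑ i, (B₂ i i).coeff 1 = 0)
    (hE₂ : E₂ * E₂ = E₂) (hE₃ : E₃ * E₃ = E₃) (h23 : E₂ * E₃ = 0) (h32 : E₃ * E₂ = 0)
    (hs₂ : ∀ i j g, (E₂ i j).coeff g = (E₂ j i).coeff g⁻¹)
    (hs₃ : ∀ i j g, (E₃ i j).coeff g = (E₃ j i).coeff g⁻¹)
    (htr : ∑ i, (E₂ i i).coeff 1 < ∑ i, (E₃ i i).coeff 1)
    (hA : A.map (MonoidAlgebra.mapRingHom G (Int.castRingHom ℚ))
      = (1 + B₁) * (1 + (q - 1) • E₂ + (q⁻¹ - 1) • E₃) * (1 + B₂)) :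
    MainStatement := by
  set n := Fintype.card ι with hn
  let e : ι ≃ Fin n := Fintype.equivFin ι
  let φ := Matrix.reindexAlgEquiv ℚ (MonoidAlgebra ℚ G) e
  have hφ : ∀ M i j, φ M i j = M (e.symm i) (e.symm j) := fun M i j => rfl
  have htrφ : ∀ M, mtr (φ M) = ∑ i, (M i i).coeff 1 := by
    intro M
    unfold mtr
    exact Equiv.sum_comp e.symm (fun i => (M i i).coeff 1)
  refine mainStatement_of_LDU (n := n) (Fintype.card_pos) (Matrix.reindex e e A) (φ B₁) (φ B₂) (φ E₂) (φ E₃) q hq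
    (by rw [← map_mul, hB₁, map_zero]) (by rw [← map_mul, hB₂, map_zero])
    (by rw [htrφ, htB₁]) (by rw [htrφ, htB₂])
    (by rw [← map_mul, hE₂]) (by rw [← map_mul, hE₃])
    (by rw [← map_mul, h23, map_zero]) (by rw [← map_mul, h32, map_zero])
    (fun i j g => hs₂ _ _ g) (fun i j g => hs₃ _ _ g) (by rw [htrφ, htrφ]; exact htr) ?_
  have : rationalMatrix (Matrix.reindex e e A)
      = φ (A.map (MonoidAlgebra.mapRingHom G (Int.castRingHom ℚ))) := by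
    ext i j : 2
    rfl
  rw [this, hA]
  simp only [map_mul, map_add, map_one, map_smul]
/-- The block matrix `[[1 + c N, C'], [X', X' C' + δ₀]]`. -/
theorem mainStatement_of_integral_data [Group.FG G] {k : ℕ} (hk : 0 < k)
    (Nz : MonoidAlgebra ℤ G) (ℓ q c : ℕ) (hℓ : 2 ≤ ℓ) (hNN : Nz * Nz = (ℓ : ℤ) • Nz)
    (hN1 : Nz.coeff 1 = 1) (hNs : ∀ g, Nz.coeff g = Nz.coeff g⁻¹) (hq1 : 1 < q) (hqc : q = 1 + c * ℓ)
    (X' C' δ₀ : Matrix (Fin k) (Fin k) (MonoidAlgebra ℤ G))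
    (h : (q : ℤ) • δ₀ + (c : ℤ) • (X' * Matrix.scalar (Fin k) Nz * C') = 1) :
    MainStatement := by
  have : Nonempty (Fin k ⊕ Fin k) := ⟨Sum.inl ⟨0, hk⟩⟩
  set f := MonoidAlgebra.mapRingHom G (Int.castRingHom ℚ) with hf
  set F := f.mapMatrix (m := Fin k) with hF
  set Nn := F (Matrix.scalar (Fin k) Nz) with hNn
  have hℓ0 : (ℓ : ℚ) ≠ 0 := by
    have : 0 < ℓ := by omega
    exact_mod_cast this.ne'
  have hq0 : (q : ℚ) ≠ 0 := by
    have : 0 < q := by omega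
    exact_mod_cast this.ne'
  have hqq : (q : ℚ) = 1 + c * ℓ := by exact_mod_cast hqc
  have hNnNn : Nn * Nn = (ℓ : ℚ) • Nn := by
    rw [hNn, ← map_mul, ← map_mul, hNN, map_zsmul, map_zsmul, ← Int.cast_smul_eq_zsmul ℚ]
    simp
  have hNnij : ∀ i j, Nn i j = if i = j then f Nz else 0 := by
    intro i j
    rw [hNn, hF, RingHom.mapMatrix_apply, Matrix.map_apply, Matrix.scalar_apply, Matrix.diagonal_apply]
    split_ifs <;> simp
  obtain ⟨hPP', hP'P⟩ := P_mul_P' Nn ℓ c q hNnNn hqc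
  have hh : (q : ℚ) • F δ₀ + (c : ℚ) • (F X' * Nn * F C') = 1 := by
    have := congrArg F h
    rw [map_add, map_zsmul, map_zsmul, map_mul, map_mul, map_one, ← Int.cast_smul_eq_zsmul ℚ,
      ← Int.cast_smul_eq_zsmul ℚ] at this
    simp only [Int.cast_natCast] at this
    exact this
  have hschur := schur_identity Nn (F X') (F C') (F δ₀) c q (by omega) hh
  set P' := 1 - ((c : ℚ) / q) • Nn with hP'
  refine mainStatement_of_LDU_index
    (Matrix.fromBlocks (1 + (c : ℤ) • Matrix.scalar (Fin k) Nz) C' X' (X' * C' + δ₀))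
    (Matrix.fromBlocks 0 0 (F X' * P') 0) (Matrix.fromBlocks 0 (P' * F C') 0 0)
    (Matrix.fromBlocks ((ℓ : ℚ)⁻¹ • Nn) 0 0 0) (Matrix.fromBlocks 0 0 0 1) (q : ℚ)
    (by exact_mod_cast hq1) ?_ ?_ ?_ ?_ ?_ ?_ ?_ ?_ ?_ ?_ ?_ ?_
  · simp [Matrix.fromBlocks_multiply]
  · simp [Matrix.fromBlocks_multiply]
  · simp [Fintype.sum_sum_type]
  · simp [Fintype.sum_sum_type]
  · rw [Matrix.fromBlocks_multiply]
    simp only [mul_zero, zero_mul, add_zero, smul_mul_smul_comm, hNnNn, smul_smul]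
    congr 2
    field_simp
  · simp [Matrix.fromBlocks_multiply]
  · simp [Matrix.fromBlocks_multiply]
  · simp [Matrix.fromBlocks_multiply]
  · rintro (i | i) (j | j) g
    · simp only [Matrix.fromBlocks_apply₁₁, Matrix.smul_apply, hNnij]
      by_cases hij : i = j
      · subst hij
        simp [hf, MonoidAlgebra.coeff_mapRingHom, hNs g]
      · simp [hij, Ne.symm hij]
    · simp
    · simp
    · simp
  · rintro (i | i) (j | j) g
    · simp
    · simp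
    · simp
    · simp only [Matrix.fromBlocks_apply₂₂, Matrix.one_apply]
      by_cases hij : i = j
      · subst hij
        classical
        by_cases hg : g = 1
        · subst hg; simp
        · simp [MonoidAlgebra.one_def, hg]
      · simp [hij, Ne.symm hij]
  · simp only [Fintype.sum_sum_type, Matrix.fromBlocks_apply₁₁, Matrix.fromBlocks_apply₂₂,
      Matrix.smul_apply, hNnij, Matrix.one_apply, if_true, Matrix.zero_apply]
    simp only [hf, MonoidAlgebra.coeff_smul, Finsupp.smul_apply, MonoidAlgebra.coeff_mapRingHom, hN1,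
      MonoidAlgebra.coeff_zero, Finsupp.zero_apply, MonoidAlgebra.coeff_one_one, Finset.sum_const,
      Finset.card_univ, Fintype.card_fin]
    have hk' : (0 : ℚ) < k := by exact_mod_cast hk
    have hl' : (2 : ℚ) ≤ ℓ := by exact_mod_cast hℓ
    have : (ℓ : ℚ)⁻¹ < 1 := inv_lt_one_of_one_lt₀ (by linarith)
    simp only [nsmul_eq_mul, smul_eq_mul, eq_intCast, Int.cast_one, mul_one]
    nlinarith
  · rw [Matrix.fromBlocks_map]
    have e1 : (1 : Matrix (Fin k ⊕ Fin k) (Fin k ⊕ Fin k) (MonoidAlgebra ℚ G))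
        = Matrix.fromBlocks 1 0 0 1 := Matrix.fromBlocks_one.symm
    rw [e1]
    simp only [Matrix.fromBlocks_smul, Matrix.fromBlocks_add, Matrix.fromBlocks_multiply, smul_zero,
      add_zero, zero_add, mul_zero, zero_mul, one_mul, mul_one]
    have b11 : (1 + (c : ℤ) • Matrix.scalar (Fin k) Nz).map f = 1 + ((q : ℚ) - 1) • (ℓ : ℚ)⁻¹ • Nn := by
      have : (1 + (c : ℤ) • Matrix.scalar (Fin k) Nz).map f = F (1 + (c : ℤ) • Matrix.scalar (Fin k) Nz) := rfl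
      rw [this, map_add, map_one, map_zsmul, ← Int.cast_smul_eq_zsmul ℚ, smul_smul, hqq]
      congr 2
      field_simp
      simp
    have hP : 1 + ((q : ℚ) - 1) • (ℓ : ℚ)⁻¹ • Nn = 1 + (c : ℚ) • Nn := by
      rw [smul_smul, hqq]
      congr 2
      field_simp
      simp
    have b22 : (1 : Matrix (Fin k) (Fin k) (MonoidAlgebra ℚ G)) + ((q : ℚ)⁻¹ - 1) • 1 = (q : ℚ)⁻¹ • 1 := by
      rw [sub_smul, one_smul]; abel
    rw [b11, hP, b22]
    have c12 : (1 + (c : ℚ) • Nn) * (P' * F C') = F C' := by rw [← mul_assoc, hPP', one_mul]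
    have c21 : F X' * P' * (1 + (c : ℚ) • Nn) = F X' := by rw [mul_assoc, hP'P, mul_one]
    have c22 : F X' * P' * (1 + (c : ℚ) • Nn) * (P' * F C') + (q : ℚ)⁻¹ • 1 = F (X' * C' + δ₀) := by
      rw [c21, ← mul_assoc, hschur, map_add, map_mul]
    rw [c22, c12, c21]
    rfl

end Claimed.Agent.R117
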