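/-
Row 117, chain "crux => S0235 S0237 S0238".  FILE 1: finite sub-presentations.

`exists_fp_cover`: for a finite subset `S` of an arbitrary group `G` there is a finitely presented group `G'`,
a homomorphism `ψ : G' → G` and a map `σ : G → G'` which is a section of `ψ` on `S` and respects every product
`s * t` with `s, t, s * t ∈ S` (generators = elements of `S`, relators = the multiplication table of `S`).
`mapDomain_mul_of_partial`: hence every identity `a * b = c` of `K[G]` whose supports and products lie in `S` lifts.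
-/
import Mathlib

set_option autoImplicit false

namespace Claimed.Agent.R117

open MonoidAlgebra

theorem exists_fp_cover {G : Type} [Group G] (S : Finset G) :
    ∃ (G' : Type) (_ : Group G') (_ : Group.IsFinitelyPresented G') (ψ : G' →* G) (σ : G → G'),
      (∀ s ∈ S, ψ (σ s) = s) ∧
      (∀ s ∈ S, ∀ t ∈ S, s * t ∈ S → σ (s * t) = σ s * σ t) := by
  classical
  let rel : {x : S × S // (x.1 : G) * x.2 ∈ S} → FreeGroup S := fun x =>
    FreeGroup.of x.1.1 * FreeGroup.of x.1.2 * (FreeGroup.of ⟨(x.1.1 : G) * x.1.2, x.2⟩)⁻¹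
  let rels : Set (FreeGroup S) := Set.range rel
  have hfin : Finite rels := Set.finite_range rel
  have hrel : ∀ r ∈ rels, FreeGroup.lift (fun s : S => (s : G)) r = 1 := by
    rintro _ ⟨x, rfl⟩
    simp [rel]
  refine ⟨PresentedGroup rels, inferInstance, inferInstance, PresentedGroup.toGroup hrel,
    fun g => if h : g ∈ S then PresentedGroup.of ⟨g, h⟩ else 1, ?_, ?_⟩
  · intro s hs
    simp [hs]
  · intro s hs t ht hst
    simp only [hs, ht, hst, dif_pos]
    have h1 : PresentedGroup.mk rels (rel ⟨(⟨s, hs⟩, ⟨t, ht⟩), hst⟩) = 1 :=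
      PresentedGroup.one_of_mem ⟨_, rfl⟩
    simp only [rel, map_mul, map_inv] at h1
    exact (mul_inv_eq_one.mp h1).symm

theorem mapDomain_mul_of_partial {K G G' : Type} [Semiring K] [Group G] [Group G'] (σ : G → G')
    (S : Finset G) (hσ : ∀ s ∈ S, ∀ t ∈ S, s * t ∈ S → σ (s * t) = σ s * σ t)
    (a b : MonoidAlgebra K G) (ha : a.coeff.support ⊆ S) (hb : b.coeff.support ⊆ S)
    (hab : ∀ s ∈ a.coeff.support, ∀ t ∈ b.coeff.support, s * t ∈ S) :
    mapDomain σ (a * b) = mapDomain σ a * mapDomain σ b := by
  classical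
  have hA : ∀ x : MonoidAlgebra K G, x = ∑ s ∈ x.coeff.support, single s (x.coeff s) := fun x =>
    (sum_coeff_single x).symm
  have hM : ∀ (T : Finset G) (f : G → MonoidAlgebra K G),
      mapDomain σ (∑ s ∈ T, f s) = ∑ s ∈ T, mapDomain σ (f s) := by
    intro T f
    induction T using Finset.induction_on with
    | empty => simp
    | insert a T ha ih => rw [Finset.sum_insert ha, Finset.sum_insert ha, mapDomain_add, ih]
  conv_lhs => rw [hA a, hA b]
  conv_rhs => rw [hA a, hA b]
  rw [Finset.sum_mul_sum, hM, hM, hM, Finset.sum_mul_sum]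
  refine Finset.sum_congr rfl fun s hs => ?_
  rw [hM]
  refine Finset.sum_congr rfl fun t ht => ?_
  rw [single_mul_single, mapDomain_single, mapDomain_single, mapDomain_single, single_mul_single,
    hσ s (ha hs) t (hb ht) (hab s hs t ht)]

theorem mapDomain_mapDomain_of_section {K G G' : Type} [Semiring K] (σ : G → G') (ψ : G' → G)
    (S : Finset G) (h : ∀ s ∈ S, ψ (σ s) = s) (a : MonoidAlgebra K G) (ha : a.coeff.support ⊆ S) :
    mapDomain ψ (mapDomain σ a) = a := by
  classical
  have hM : ∀ {A B : Type} (φ : A → B) (T : Finset G) (f : G → MonoidAlgebra K A),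
      mapDomain φ (∑ s ∈ T, f s) = ∑ s ∈ T, mapDomain φ (f s) := by
    intro A B φ T f
    induction T using Finset.induction_on with
    | empty => simp
    | insert a T ha ih => rw [Finset.sum_insert ha, Finset.sum_insert ha, mapDomain_add, ih]
  have hA : a = ∑ s ∈ a.coeff.support, single s (a.coeff s) := (sum_coeff_single a).symm
  conv_lhs => rw [hA]
  conv_rhs => rw [hA]
  rw [hM, hM]
  refine Finset.sum_congr rfl fun s hs => ?_
  rw [mapDomain_single, mapDomain_single, h s (ha hs)]

/-- The form used by the chains: a finite set `T` of group elements and finitely many pairs `(a, b)` of elements of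
`K[G]`; all products `a * b`, and the multiplication table of `T`, lift to a finitely presented group over `G`. -/
theorem fp_transfer {K G : Type} [Semiring K] [Group G] (T : Finset G)
    (P : Finset (MonoidAlgebra K G × MonoidAlgebra K G)) :
    ∃ (G' : Type) (_ : Group G') (_ : Group.IsFinitelyPresented G') (ψ : G' →* G) (σ : G → G'),
      σ 1 = 1 ∧ (∀ s ∈ T, ψ (σ s) = s) ∧
      (∀ s ∈ T, ∀ t ∈ T, s * t ∈ T → σ (s * t) = σ s * σ t) ∧
      (∀ x ∈ P, mapDomain σ (x.1 * x.2) = mapDomain σ x.1 * mapDomain σ x.2 ∧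
        mapDomain ψ (mapDomain σ x.1) = x.1 ∧ mapDomain ψ (mapDomain σ x.2) = x.2) := by
  classical
  let S : Finset G := (T ∪ {1}) ∪ P.biUnion fun x =>
    (x.1.coeff.support ∪ x.2.coeff.support) ∪ Finset.image₂ (· * ·) x.1.coeff.support x.2.coeff.support
  obtain ⟨G', i1, i2, ψ, σ, h1, h2⟩ := exists_fp_cover S
  have hT : T ⊆ S := fun s hs => Finset.mem_union_left _ (Finset.mem_union_left _ hs)
  have h1S : (1 : G) ∈ S := Finset.mem_union_left _ (Finset.mem_union_right _ (Finset.mem_singleton_self 1))
  have hP : ∀ x ∈ P, (x.1.coeff.support ∪ x.2.coeff.support) ∪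
      Finset.image₂ (· * ·) x.1.coeff.support x.2.coeff.support ⊆ S := fun x hx s hs =>
    Finset.mem_union_right _ (Finset.mem_biUnion.mpr ⟨x, hx, hs⟩)
  refine ⟨G', i1, i2, ψ, σ, ?_, fun s hs => h1 s (hT hs),
    fun s hs t ht hst => h2 s (hT hs) t (hT ht) (hT hst), fun x hx => ⟨?_, ?_, ?_⟩⟩
  · have := h2 1 h1S 1 h1S (by simpa using h1S)
    rw [mul_one] at this
    exact (mul_eq_left.mp this.symm)
  · refine mapDomain_mul_of_partial σ S h2 x.1 x.2 ?_ ?_ ?_
    · exact fun s hs => hP x hx (Finset.mem_union_left _ (Finset.mem_union_left _ hs))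
    · exact fun s hs => hP x hx (Finset.mem_union_left _ (Finset.mem_union_right _ hs))
    · exact fun s hs t ht => hP x hx (Finset.mem_union_right _ (Finset.mem_image₂_of_mem hs ht))
  · exact mapDomain_mapDomain_of_section σ ψ S h1 x.1
      fun s hs => hP x hx (Finset.mem_union_left _ (Finset.mem_union_left _ hs))
  · exact mapDomain_mapDomain_of_section σ ψ S h1 x.2
      fun s hs => hP x hx (Finset.mem_union_left _ (Finset.mem_union_right _ hs))

end Claimed.Agent.R117
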