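/-
Row 117, chain "crux => S0235 S0237 S0238".  FILE 2: a failure of direct finiteness `a * b = 1 ≠ b * a` in `K[G]`, `G` ANY group,
can be moved to a finitely presented group that contains an element of order 3
(pass to `G × ℤ/3`, then to the finite sub-presentation of `FinPres.lean`).
-/
import Claimed.Agent.R117.FinPres

set_option autoImplicit false

namespace Claimed.Agent.R117

open MonoidAlgebra

theorem fg_of_isFinitelyPresented (G : Type) [Group G] [h : Group.IsFinitelyPresented G] : Group.FG G := by
  obtain ⟨n, φ, hφ, -⟩ := h.out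
  exact Group.fg_of_surjective hφ

theorem mapDomain_one_of_map_one {K G G' : Type} [Semiring K] [Group G] [Group G'] (σ : G → G') (h : σ 1 = 1) :
    mapDomain σ (1 : MonoidAlgebra K G) = 1 := by
  rw [one_def, mapDomain_single, h, one_def]

theorem nonDF_fp_torsion {K G : Type} [Semiring K] [Group G] (a b : MonoidAlgebra K G)
    (hab : a * b = 1) (hba : b * a ≠ 1) :
    ∃ (G' : Type) (_ : Group G') (_ : Group.IsFinitelyPresented G'),
      (∃ g : G', orderOf g = 3) ∧ ∃ a' b' : MonoidAlgebra K G', a' * b' = 1 ∧ b' * a' ≠ 1 := by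
  classical
  let ι : G →* G × Multiplicative (ZMod 3) := MonoidHom.inl G (Multiplicative (ZMod 3))
  let π : G × Multiplicative (ZMod 3) →* G := MonoidHom.fst G (Multiplicative (ZMod 3))
  let A := mapDomainRingHom K ι a
  let B := mapDomainRingHom K ι b
  have hπι : ∀ x : MonoidAlgebra K G, mapDomainRingHom K π (mapDomainRingHom K ι x) = x := by
    intro x
    have : (mapDomainRingHom K π).comp (mapDomainRingHom K ι) = RingHom.id _ := by
      rw [← mapDomainRingHom_comp]
      have : π.comp ι = MonoidHom.id G := by ext; rfl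
      rw [this, mapDomainRingHom_id]
    exact congrArg (fun f => f x) this
  have hAB : A * B = 1 := by
    simp only [A, B]; rw [← map_mul, hab, map_one]
  have hBA : B * A ≠ 1 := by
    intro h
    apply hba
    have := congrArg (mapDomainRingHom K π) h
    rwa [map_mul, map_one, hπι, hπι] at this
  let z : G × Multiplicative (ZMod 3) := (1, Multiplicative.ofAdd 1)
  have hz1 : z ≠ 1 := by
    intro h
    have h2 : (Multiplicative.ofAdd (1 : ZMod 3)) = 1 := congrArg Prod.snd h
    exact absurd h2 (by decide)
  have hz3 : z * z * z = 1 := by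
    refine Prod.ext (by simp [z]) ?_
    simp only [z, Prod.snd_mul, Prod.snd_one]
    decide
  obtain ⟨G', i1, i2, ψ, σ, h1, hψ, hσ, hP⟩ :=
    fp_transfer ({1, z, z * z} : Finset (G × Multiplicative (ZMod 3))) {(A, B)}
  obtain ⟨hm, hA, hB⟩ := hP (A, B) (Finset.mem_singleton_self _)
  simp only at hm hA hB
  refine ⟨G', i1, i2, ⟨σ z, ?_⟩, mapDomain σ A, mapDomain σ B, ?_, ?_⟩
  · have : Fact (Nat.Prime 3) := ⟨by norm_num⟩
    refine orderOf_eq_prime ?_ ?_
    · have e1 : σ (z * z) = σ z * σ z := hσ z (by simp) z (by simp) (by simp)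
      have e2 : σ (z * z * z) = σ (z * z) * σ z := hσ (z * z) (by simp) z (by simp) (by simp [hz3])
      rw [pow_succ, pow_two, ← e1, ← e2, hz3, h1]
    · intro h
      apply hz1
      have := hψ z (by simp)
      rw [h, map_one] at this
      exact this.symm
  · rw [← hm, hAB, mapDomain_one_of_map_one σ h1]
  · intro h
    apply hBA
    have := congrArg (mapDomainRingHom K ψ) h
    rw [map_mul, map_one] at this
    simp only [mapDomainRingHom_apply] at this
    rwa [hA, hB] at this

end Claimed.Agent.R117
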