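/-
Row 117, chain "crux => S0235 S0237 S0238".  FILE 3: S0237 from its crux.

`Crux237` : some group algebra of ANY group over a finite field of characteristic 2 is not
directly finite.  `S0237_of_crux : Crux237 → (frozen statement of S0237)`; no gap in this file.
`crux237_of_P0` : the form (P0) of crux #143/#146 (`x * c = 1`, `h * c = c`, `h ≠ 1`) gives it.
-/
import Claimed.Prelude.Def_0200
import Claimed.Agent.R117.NonDF

set_option autoImplicit false

namespace Claimed.Agent.R117

/-- The crux of S0237: failure of direct finiteness in characteristic 2, `G` any group. -/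
def Crux237 : Prop :=
  ∃ (K : Type) (_ : Field K) (_ : Fintype K) (_ : CharP K 2) (G : Type) (_ : Group G)
    (a b : MonoidAlgebra K G), a * b = 1 ∧ b * a ≠ 1

/-- `(P0)`: a left invertible `c` fixed by a non trivial group element. -/
theorem nonDF_of_P0 {K G : Type} [Field K] [Group G] (h : G) (hh : h ≠ 1)
    (x c : MonoidAlgebra K G) (hxc : x * c = 1) (hc : MonoidAlgebra.of K G h * c = c) :
    x * c = 1 ∧ c * x ≠ 1 := by
  refine ⟨hxc, fun hcx => hh ?_⟩
  have h1 : MonoidAlgebra.of K G h = 1 := by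
    calc MonoidAlgebra.of K G h = MonoidAlgebra.of K G h * (c * x) := by rw [hcx, mul_one]
      _ = c * x := by rw [← mul_assoc, hc]
      _ = 1 := hcx
  have h2 : MonoidAlgebra.of K G h = MonoidAlgebra.of K G 1 := by rw [h1, map_one]
  exact MonoidAlgebra.of_injective h2

theorem crux237_of_P0 (H : ∃ (K : Type) (_ : Field K) (_ : Fintype K) (_ : CharP K 2) (G : Type)
    (_ : Group G) (h : G) (x c : MonoidAlgebra K G),
      h ≠ 1 ∧ x * c = 1 ∧ MonoidAlgebra.of K G h * c = c) : Crux237 := by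
  obtain ⟨K, i1, i2, i3, G, i4, h, x, c, hh, hxc, hc⟩ := H
  exact ⟨K, i1, i2, i3, G, i4, x, c, nonDF_of_P0 h hh x c hxc hc⟩

theorem S0237_of_crux (H : Crux237) :
    ∃ (K : Type) (_ : Field K) (_ : Fintype K) (_ : CharP K 2),
      ∃ (G : Type) (_ : Group G) (_ : Group.IsFinitelyPresented G),
        (∃ (ℓ : ℕ) (_ : ℓ.Prime) (_ : Odd ℓ) (g : G), orderOf g = ℓ) ∧
        ∃ a_out b_out : MonoidAlgebra K G, a_out * b_out = 1 ∧ b_out * a_out ≠ 1 := by
  obtain ⟨K, i1, i2, i3, G, i4, a, b, hab, hba⟩ := H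
  obtain ⟨G', j1, j2, ⟨g, hg⟩, a', b', h1, h2⟩ := nonDF_fp_torsion a b hab hba
  exact ⟨K, i1, i2, i3, G', j1, j2, ⟨3, by norm_num, by decide, g, hg⟩, a', b', h1, h2⟩

/-- the supporting statement S0236 (row 361, weight 0) from the same crux. -/
theorem S0236_of_crux (H : Crux237) : Claims.C0200.KaplanskyCounterexample.MainClaim := by
  obtain ⟨K, i1, i2, i3, G, i4, a, b, hab, hba⟩ := H
  obtain ⟨G', j1, j2, -, a', b', h1, h2⟩ := nonDF_fp_torsion a b hab hba
  exact ⟨K, i1, i2, i3, G', j1, fg_of_isFinitelyPresented G', a', b', h1, h2⟩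

end Claimed.Agent.R117
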