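/-
Row 117, chain "crux => S0235 S0237 S0238".  FILE 4: S0238 from its crux.

`Crux238` : some group algebra `K[G]`, `G` ANY group, `K` a field with `sourcePrime ^ 4` elements, is not
directly finite.  `S0238_of_crux : Crux238 → Claims.C0202.OddKaplansky.MainClaim`; no gap in this file.
Contents: arithmetic of `sourcePrime`; `d ↦ cellular d` is a faithful ring action on `G → K`.
-/
import Claimed.Prelude.Def_0202
import Claimed.Agent.R117.Chain237

set_option autoImplicit false

namespace Claimed.Agent.R117

open Claims.C0202.OddKaplansky

theorem sourcePrime_prime : sourcePrime.Prime := by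
  rw [sourcePrime]
  apply Nat.minFac_prime
  have : 0 < (Nat.factorial sourceM) ^ 2 := pow_pos (Nat.factorial_pos _) 2
  omega

theorem two_le_sourceM : 2 ≤ sourceM := by
  unfold sourceM
  have h0 : (0 : ℕ) < 600 := by omega
  have h := Nat.two_le_centralBinom 600 h0
  rw [Nat.centralBinom_eq_two_mul_choose] at h
  have e : 2 * 600 = 1200 := by norm_num
  rw [e] at h
  exact h

/-- every prime `q ≤ sourceM` differs from `sourcePrime` (more: `sourceM < sourcePrime`). -/
theorem sourceM_lt_sourcePrime : sourceM < sourcePrime := by
  by_contra hle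
  have hle' : sourcePrime ≤ sourceM := not_lt.mp hle
  have h1 : sourcePrime ∣ Nat.factorial sourceM :=
    Nat.dvd_factorial sourcePrime_prime.pos hle'
  have h2 : sourcePrime ∣ (Nat.factorial sourceM) ^ 2 + 1 := by
    conv_lhs => rw [sourcePrime]
    exact Nat.minFac_dvd _
  have h3 : sourcePrime ∣ (Nat.factorial sourceM) ^ 2 := Dvd.dvd.pow h1 (by norm_num)
  have h4 : sourcePrime ∣ 1 := (Nat.dvd_add_right h3).mp h2
  exact sourcePrime_prime.one_lt.ne' (Nat.dvd_one.mp h4)

theorem sourcePrime_odd : Odd sourcePrime := by
  refine sourcePrime_prime.odd_of_ne_two ?_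
  have := sourceM_lt_sourcePrime
  have := two_le_sourceM
  omega

section cellular

variable {K G : Type} [Field K] [Group G]

theorem cellular_add (d d' : MonoidAlgebra K G) (x : G → K) (g : G) :
    cellular (d + d') x g = cellular d x g + cellular d' x g := by
  unfold cellular
  rw [MonoidAlgebra.coeff_add]
  exact Finsupp.sum_add_index' (by simp) (by intros; ring)

theorem cellular_zero (x : G → K) (g : G) : cellular (0 : MonoidAlgebra K G) x g = 0 := by
  unfold cellular
  simp

theorem cellular_single (u : G) (c : K) (x : G → K) (g : G) :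
    cellular (MonoidAlgebra.single u c) x g = c * x (g * u) := by
  unfold cellular
  rw [MonoidAlgebra.coeff_single]
  exact Finsupp.sum_single_index (by simp)

theorem cellular_mul (d d' : MonoidAlgebra K G) (x : G → K) :
    cellular (d * d') x = cellular d (cellular d' x) := by
  funext g
  induction d using MonoidAlgebra.induction_linear with
  | zero => rw [zero_mul, cellular_zero, cellular_zero]
  | add d₁ d₂ h₁ h₂ => rw [add_mul, cellular_add, cellular_add, h₁, h₂]
  | single u c =>
    rw [cellular_single]
    induction d' using MonoidAlgebra.induction_linear with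
    | zero => rw [mul_zero, cellular_zero, cellular_zero, mul_zero]
    | add d₁ d₂ h₁ h₂ => rw [mul_add, cellular_add, cellular_add, h₁, h₂, mul_add]
    | single v c' =>
      rw [MonoidAlgebra.single_mul_single, cellular_single, cellular_single, mul_assoc, mul_assoc]

theorem cellular_one (x : G → K) : cellular (1 : MonoidAlgebra K G) x = x := by
  funext g
  rw [MonoidAlgebra.one_def, cellular_single, one_mul, mul_one]

theorem cellular_faithful (d d' : MonoidAlgebra K G) (h : cellular d = cellular d') : d = d' := by
  classical
  have key : ∀ (e : MonoidAlgebra K G) (u : G),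
      cellular e (fun v => if v = u then 1 else 0) 1 = e.coeff u := by
    intro e u
    induction e using MonoidAlgebra.induction_linear with
    | zero => rw [cellular_zero]; simp
    | add d₁ d₂ h₁ h₂ => rw [cellular_add, h₁, h₂, MonoidAlgebra.coeff_add, Finsupp.add_apply]
    | single v c =>
      rw [cellular_single, MonoidAlgebra.coeff_single, one_mul, Finsupp.single_apply]
      split_ifs <;> simp
  apply MonoidAlgebra.ext
  ext u
  rw [← key d u, ← key d' u, h]

theorem cellular_of_nonDF (a b : MonoidAlgebra K G) (hab : a * b = 1) (hba : b * a ≠ 1) :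
    Function.Injective (cellular b) ∧ ¬ Function.Surjective (cellular b) := by
  have hl : Function.LeftInverse (cellular a) (cellular b) := by
    intro x
    rw [← cellular_mul, hab, cellular_one]
  refine ⟨hl.injective, fun hs => hba ?_⟩
  apply cellular_faithful
  funext x
  obtain ⟨y, rfl⟩ := hs x
  rw [cellular_mul, hl y, cellular_one]

end cellular

/-- The crux of S0238: failure of direct finiteness over a field with `sourcePrime ^ 4` elements. -/
def Crux238 : Prop :=
  ∃ (K : Type) (_ : Field K) (_ : Fintype K) (_ : CharP K sourcePrime),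
    Fintype.card K = sourcePrime ^ 4 ∧
    ∃ (G : Type) (_ : Group G) (a b : MonoidAlgebra K G), a * b = 1 ∧ b * a ≠ 1

theorem S0238_of_crux (H : Crux238) : MainClaim := by
  obtain ⟨K, i1, i2, i3, hcard, G, i4, a, b, hab, hba⟩ := H
  obtain ⟨G', j1, j2, ⟨g, hg⟩, a', b', h1, h2⟩ := nonDF_fp_torsion a b hab hba
  refine ⟨sourcePrime_prime, sourcePrime_odd, K, i1, i2, i3, hcard, G', j1,
    fg_of_isFinitelyPresented G', ⟨g, ?_, ?_⟩, a', b', h1, h2, cellular_of_nonDF a' b' h1 h2⟩
  · rintro rfl
    rw [orderOf_one] at hg
    omega
  · exact orderOf_pos_iff.mp (by omega)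

end Claimed.Agent.R117
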