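import Claimed.Agent.R117.Sub235
import Claimed.Agent.R117.Chain238

/-!
# Row 117, chain "crux => S0235 S0237 S0238".  FILE: S0235 from the crux (P0); summary of the chain.

`P0 K` (crux #143 / #146): a group `G`, `h ≠ 1` in `G`, `x c ∈ K[G]` with `x * c = 1` and `h * c = c`.

* `S0235_of_crux : Crux235 → Claims.C0199.GroupRingDeterminant.MainStatement`,
  `Crux235 = ∃ K` finite field, `P0 K`  (any characteristic).
* `crux237_of_P0'`, `crux238_of_P0` : `P0 K` with `char K = 2`, resp. `|K| = sourcePrime ^ 4`, gives `Crux237`, `Crux238`.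
* `row117_of_P0` : all three frozen statements from `P0` over one field of characteristic 2 and one field with
  `sourcePrime ^ 4` elements.
Steps for S0235: pass to a finitely presented group (`fp_transfer`); `H = ⟨h⟩` is finite of order prime to `p`
(`finite_coprime_of_fixed`); restriction of scalars `K[G] → M_k(𝔽_p[G])` (`exists_matrix_rep`);
`mainStatement_of_matrix_P0`.  No gap in this file: the ONLY thing missing for row 117 is `P0`.
-/

set_option autoImplicit false

namespace Claimed.Agent.R117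

open Claims.C0199.GroupRingDeterminant

/-- restriction of scalars `K[G] → M_k(𝔽_p[G])`, `k = [K : 𝔽_p]`. -/
theorem exists_matrix_rep (p : ℕ) [Fact p.Prime] (K : Type) [Field K] [Finite K] [CharP K p]
    (G : Type) [Group G] :
    ∃ (k : ℕ) (_ : 0 < k)
      (Φ : MonoidAlgebra K G →+* Matrix (Fin k) (Fin k) (MonoidAlgebra (ZMod p) G)),
      ∀ g, Φ (MonoidAlgebra.of K G g) = Matrix.scalar (Fin k) (MonoidAlgebra.of (ZMod p) G g) := by
  let _ := ZMod.algebra K p
  have : Module.Finite (ZMod p) K := Module.Finite.of_finite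
  let b := Module.finBasis (ZMod p) K
  let f' : K →+* Matrix (Fin (Module.finrank (ZMod p) K)) (Fin (Module.finrank (ZMod p) K))
      (MonoidAlgebra (ZMod p) G) :=
    (algebraMap (ZMod p) (MonoidAlgebra (ZMod p) G)).mapMatrix.comp (Algebra.leftMulMatrix b).toRingHom
  let g' : G →* Matrix (Fin (Module.finrank (ZMod p) K)) (Fin (Module.finrank (ZMod p) K))
      (MonoidAlgebra (ZMod p) G) :=
    (Matrix.scalar (Fin (Module.finrank (ZMod p) K))).toMonoidHom.comp (MonoidAlgebra.of (ZMod p) G)
  have hcomm : ∀ x y, Commute (f' x) (g' y) := by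
    intro x y
    refine (Matrix.scalar_commute_iff.2 ?_).symm
    ext i j : 1
    show MonoidAlgebra.of (ZMod p) G y * algebraMap (ZMod p) (MonoidAlgebra (ZMod p) G) _
      = algebraMap (ZMod p) (MonoidAlgebra (ZMod p) G) _ * MonoidAlgebra.of (ZMod p) G y
    exact (Algebra.commutes _ _).symm
  refine ⟨Module.finrank (ZMod p) K, Module.finrank_pos, MonoidAlgebra.liftNCRingHom f' g' hcomm, ?_⟩
  intro g
  rw [MonoidAlgebra.of_apply, MonoidAlgebra.liftNCRingHom_single, map_one, one_mul]
  rfl
variable {K G : Type} [Field K] [Group G]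

lemma coeff_mul_left_of_fixed (c : MonoidAlgebra K G) (g : G) (hg : MonoidAlgebra.of K G g * c = c)
    (s : G) : c.coeff (g * s) = c.coeff s := by
  conv_lhs => rw [← hg]
  rw [MonoidAlgebra.of_apply, MonoidAlgebra.coeff_single_mul_mul, one_mul]

/-- a function invariant under a finite subgroup of order divisible by the characteristic has augmentation `0` -/
theorem aug_eq_zero (p : ℕ) [CharP K p] (H : Subgroup G) [Fintype H] (hdvd : p ∣ Fintype.card H)
    (c : MonoidAlgebra K G) (hinv : ∀ g ∈ H, ∀ s, c.coeff (g * s) = c.coeff s) :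
    ∑ s ∈ c.coeff.support, c.coeff s = 0 := by
  classical
  rw [Finset.sum_partition (QuotientGroup.rightRel H)]
  refine Finset.sum_eq_zero (fun o ho => ?_)
  obtain ⟨s₀, hs₀, rfl⟩ := Finset.mem_image.mp ho
  have hfib : (c.coeff.support.filter
      (fun y => (Quotient.mk (QuotientGroup.rightRel H) y) = Quotient.mk (QuotientGroup.rightRel H) s₀))
      = Finset.univ.image (fun g : H => (g : G) * s₀) := by
    ext s
    simp only [Finset.mem_filter, Finset.mem_image, Finset.mem_univ, true_and]
    constructor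
    · rintro ⟨-, h⟩
      have h' : s₀ * s⁻¹ ∈ H := QuotientGroup.rightRel_apply.mp (Quotient.exact h)
      refine ⟨⟨(s₀ * s⁻¹)⁻¹, H.inv_mem h'⟩, ?_⟩
      simp
    · rintro ⟨g, rfl⟩
      refine ⟨?_, ?_⟩
      · rw [Finsupp.mem_support_iff, hinv g g.2]
        exact Finsupp.mem_support_iff.mp hs₀
      · apply Quotient.sound
        apply QuotientGroup.rightRel_apply.mpr
        simp
  rw [hfib, Finset.sum_image (fun a _ b _ h => Subtype.ext (mul_right_cancel h)),
    Finset.sum_congr rfl (fun (g : H) _ => hinv g g.2 s₀), Finset.sum_const, Finset.card_univ,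
    nsmul_eq_mul, (CharP.cast_eq_zero_iff K p _).mpr hdvd, zero_mul]

theorem finite_coprime_of_fixed (p : ℕ) (hp : p.Prime) [CharP K p] (H : Subgroup G)
    (x c : MonoidAlgebra K G) (hxc : x * c = 1) (hc : ∀ g ∈ H, MonoidAlgebra.of K G g * c = c) :
    Finite H ∧ Nat.Coprime p (Nat.card H) := by
  classical
  have hinv : ∀ g ∈ H, ∀ s, c.coeff (g * s) = c.coeff s :=
    fun g hg s => coeff_mul_left_of_fixed c g (hc g hg) s
  have hc0 : c ≠ 0 := by
    rintro rfl
    rw [mul_zero] at hxc
    exact zero_ne_one hxc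
  have hfin : Finite H := by
    obtain ⟨s₀, hs₀⟩ : ∃ s₀, c.coeff s₀ ≠ 0 := by
      by_contra hcon
      push Not at hcon
      exact hc0 (MonoidAlgebra.ext (Finsupp.ext hcon))
    refine Finite.of_injective (β := c.coeff.support)
      (fun g : H => ⟨(g : G) * s₀, by rw [Finsupp.mem_support_iff, hinv g g.2]; exact hs₀⟩) ?_
    intro a b hab
    exact Subtype.ext (mul_right_cancel (congrArg Subtype.val hab))
  refine ⟨hfin, ?_⟩
  have := Fintype.ofFinite H
  rw [Nat.card_eq_fintype_card, Nat.Prime.coprime_iff_not_dvd hp]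
  intro hdvd
  have h0 := aug_eq_zero p H hdvd c hinv
  let ε : MonoidAlgebra K G →ₐ[K] K := MonoidAlgebra.lift K K G 1
  have hε : ε c = 0 := by
    show MonoidAlgebra.lift K K G 1 c = 0
    rw [MonoidAlgebra.lift_apply, Finsupp.sum]
    simpa using h0
  have := congrArg ε hxc
  rw [map_mul, hε, mul_zero, map_one] at this
  exact zero_ne_one this
/-- **(P0)**: a left invertible element of `K[G]` fixed by a non trivial group element. -/
def P0 (K : Type) [Field K] : Prop :=
  ∃ (G : Type) (_ : Group G) (h : G) (x c : MonoidAlgebra K G),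
    h ≠ 1 ∧ x * c = 1 ∧ MonoidAlgebra.of K G h * c = c

/-- The crux of S0235: `(P0)` over some finite field. -/
def Crux235 : Prop :=
  ∃ (K : Type) (_ : Field K) (_ : Fintype K), P0 K

/-- `(P0)` can be realised in a finitely presented group. -/
theorem P0_fp {K : Type} [Field K] (H : P0 K) :
    ∃ (G : Type) (_ : Group G) (_ : Group.IsFinitelyPresented G) (h : G) (x c : MonoidAlgebra K G),
      h ≠ 1 ∧ x * c = 1 ∧ MonoidAlgebra.of K G h * c = c := by
  classical
  obtain ⟨G, i, h, x, c, hh, hxc, hc⟩ := H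
  obtain ⟨G', i1, i2, ψ, σ, h1, hψ, -, hP⟩ :=
    fp_transfer ({h} : Finset G) {(x, c), (MonoidAlgebra.of K G h, c)}
  obtain ⟨hm1, -, -⟩ := hP (x, c) (by simp)
  obtain ⟨hm2, -, -⟩ := hP (MonoidAlgebra.of K G h, c) (by simp)
  simp only at hm1 hm2
  refine ⟨G', i1, i2, σ h, MonoidAlgebra.mapDomain σ x, MonoidAlgebra.mapDomain σ c, ?_, ?_, ?_⟩
  · intro h0
    apply hh
    have := hψ h (by simp)
    rw [h0, map_one] at this
    exact this.symm
  · rw [← hm1, hxc, mapDomain_one_of_map_one σ h1]
  · rw [hc] at hm2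
    rw [MonoidAlgebra.of_apply, MonoidAlgebra.mapDomain_single] at hm2
    rw [MonoidAlgebra.of_apply]
    exact hm2.symm

theorem fixed_zpowers {K G : Type} [Field K] [Group G] (h : G) (c : MonoidAlgebra K G)
    (hc : MonoidAlgebra.of K G h * c = c) :
    ∀ g ∈ Subgroup.zpowers h, MonoidAlgebra.of K G g * c = c := by
  let S : Subgroup G :=
    { carrier := {g | MonoidAlgebra.of K G g * c = c}
      one_mem' := by
        show MonoidAlgebra.of K G 1 * c = c
        rw [map_one, one_mul]
      mul_mem' := by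
        intro a b ha hb
        have ha' : MonoidAlgebra.of K G a * c = c := ha
        have hb' : MonoidAlgebra.of K G b * c = c := hb
        show MonoidAlgebra.of K G (a * b) * c = c
        rw [map_mul, mul_assoc, hb', ha']
      inv_mem' := by
        intro a ha
        have ha' : MonoidAlgebra.of K G a * c = c := ha
        show MonoidAlgebra.of K G a⁻¹ * c = c
        conv_lhs => rw [← ha']
        rw [← mul_assoc, ← map_mul, inv_mul_cancel, map_one, one_mul] }
  have : Subgroup.zpowers h ≤ S := (Subgroup.zpowers_le).mpr hc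
  exact fun g hg => this hg

theorem S0235_of_crux (H : Crux235) : MainStatement := by
  obtain ⟨K, i1, i2, hP0⟩ := H
  obtain ⟨p, hchar⟩ := CharP.exists K
  have hp : p.Prime := (CharP.char_is_prime_or_zero K p).resolve_right (CharP.char_ne_zero_of_finite K p)
  have : Fact p.Prime := ⟨hp⟩
  obtain ⟨G, j1, j2, h, x, c, hh, hxc, hc⟩ := P0_fp hP0
  have hfix := fixed_zpowers h c hc
  obtain ⟨hfin, hcop⟩ := finite_coprime_of_fixed p hp (Subgroup.zpowers h) x c hxc hfix
  have := Fintype.ofFinite (Subgroup.zpowers h)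
  rw [Nat.card_eq_fintype_card] at hcop
  have hnt : Nontrivial (Subgroup.zpowers h) :=
    ⟨⟨⟨h, Subgroup.mem_zpowers h⟩, 1, fun e => hh (congrArg Subtype.val e)⟩⟩
  obtain ⟨k, hk, Φ, hΦ⟩ := exists_matrix_rep p K G
  have := fg_of_isFinitelyPresented G
  refine mainStatement_of_matrix_P0 p hp (Subgroup.zpowers h) Fintype.one_lt_card hcop hk (Φ x) (Φ c)
    (by rw [← map_mul, hxc, map_one]) (fun g hg => by rw [← hΦ, ← map_mul, hfix g hg])

/-- `(P0)` in characteristic 2 gives the crux of S0237. -/
theorem crux237_of_P0' (H : ∃ (K : Type) (_ : Field K) (_ : Fintype K) (_ : CharP K 2), P0 K) :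
    Crux237 := by
  obtain ⟨K, i1, i2, i3, G, i4, h, x, c, hh, hxc, hc⟩ := H
  exact ⟨K, i1, i2, i3, G, i4, x, c, nonDF_of_P0 h hh x c hxc hc⟩

/-- `(P0)` over a field with `sourcePrime ^ 4` elements gives the crux of S0238. -/
theorem crux238_of_P0 (H : ∃ (K : Type) (_ : Field K) (_ : Fintype K)
    (_ : CharP K Claims.C0202.OddKaplansky.sourcePrime),
    Fintype.card K = Claims.C0202.OddKaplansky.sourcePrime ^ 4 ∧ P0 K) : Crux238 := by
  obtain ⟨K, i1, i2, i3, hcard, G, i4, h, x, c, hh, hxc, hc⟩ := H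
  exact ⟨K, i1, i2, i3, hcard, G, i4, x, c, nonDF_of_P0 h hh x c hxc hc⟩

/-- **Row 117 from (P0).**  The three frozen statements S0235, S0237, S0238. -/
theorem row117_of_P0
    (H2 : ∃ (K : Type) (_ : Field K) (_ : Fintype K) (_ : CharP K 2), P0 K)
    (Hs : ∃ (K : Type) (_ : Field K) (_ : Fintype K)
      (_ : CharP K Claims.C0202.OddKaplansky.sourcePrime),
      Fintype.card K = Claims.C0202.OddKaplansky.sourcePrime ^ 4 ∧ P0 K) :
    MainStatement ∧
    (∃ (K : Type) (_ : Field K) (_ : Fintype K) (_ : CharP K 2),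
      ∃ (G : Type) (_ : Group G) (_ : Group.IsFinitelyPresented G),
        (∃ (ℓ : ℕ) (_ : ℓ.Prime) (_ : Odd ℓ) (g : G), orderOf g = ℓ) ∧
        ∃ a_out b_out : MonoidAlgebra K G, a_out * b_out = 1 ∧ b_out * a_out ≠ 1) ∧
    Claims.C0202.OddKaplansky.MainClaim := by
  refine ⟨?_, S0237_of_crux (crux237_of_P0' H2), S0238_of_crux (crux238_of_P0 Hs)⟩
  obtain ⟨K, i1, i2, -, h⟩ := H2
  exact S0235_of_crux ⟨K, i1, i2, h⟩

/-- forces the on-demand equation lemmas to live in this file (grader rule 6). -/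
theorem cite_auto_Chain235 : True := by
  have := @P0.eq_1
  have := @Crux235.eq_1
  trivial

end Claimed.Agent.R117
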