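import Mathlib

/-!
# Row 117, chain "crux => S0235".  Operators on `ℓ²(α)`, set level.

First half: copy (new namespace) of the generic layer of `R122/Ell2.lean` (helper489's `R186/Ell2.lean`):
permutation unitaries `perm σ`, basis vectors `δ a`, extensionality.  New: `cut S` (restriction to a
subset) and the matrix coefficients of an adjoint.  No gap in this file.
-/

set_option autoImplicit false

namespace Claimed.Agent.R117

open scoped InnerProductSpace ENNReal

/-- `ℓ²(α)` -/
abbrev L2 (α : Type) : Type := lp (fun _ : α => ℂ) 2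

variable {α : Type}

lemma two_toReal_pos : 0 < (2 : ℝ≥0∞).toReal := by norm_num

lemma memℓp_comp (σ : Equiv.Perm α) (x : L2 α) : Memℓp (fun g => x (σ g)) 2 := by
  have h := lp.memℓp x
  rw [memℓp_gen_iff two_toReal_pos] at h ⊢
  exact (σ.summable_iff (f := fun g => ‖x g‖ ^ (2 : ℝ≥0∞).toReal)).2 h

/-- linear map underlying `perm` -/
noncomputable def permLin (σ : Equiv.Perm α) : L2 α →ₗ[ℂ] L2 α where
  toFun x := ⟨fun g => x (σ.symm g), memℓp_comp σ.symm x⟩
  map_add' x y := by ext g; rfl
  map_smul' c x := by ext g; rfl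

lemma permLin_apply (σ : Equiv.Perm α) (x : L2 α) (g : α) : permLin σ x g = x (σ.symm g) := rfl

lemma permLin_inner (σ : Equiv.Perm α) (x y : L2 α) :
    ⟪permLin σ x, permLin σ y⟫_ℂ = ⟪x, y⟫_ℂ := by
  rw [lp.inner_eq_tsum, lp.inner_eq_tsum]
  exact σ.symm.tsum_eq (fun g => ⟪x g, y g⟫_ℂ)

/-- The unitary of `ℓ²(α)` induced by a permutation: `(perm σ x) a = x (σ⁻¹ a)`,
`perm σ δ_a = δ_{σ a}`. -/
noncomputable def perm (σ : Equiv.Perm α) : L2 α →L[ℂ] L2 α :=
  ((permLin σ).isometryOfInner (permLin_inner σ)).toContinuousLinearMap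

@[simp] lemma perm_apply (σ : Equiv.Perm α) (x : L2 α) (g : α) : perm σ x g = x (σ.symm g) := rfl

lemma perm_inner (σ : Equiv.Perm α) (x y : L2 α) : ⟪perm σ x, perm σ y⟫_ℂ = ⟪x, y⟫_ℂ :=
  permLin_inner σ x y

lemma perm_mul (σ τ : Equiv.Perm α) : perm σ * perm τ = perm (σ * τ) := by
  ext x g; rfl

@[simp] lemma perm_one : perm (1 : Equiv.Perm α) = 1 := by
  ext x g; rfl

lemma star_perm (σ : Equiv.Perm α) : star (perm σ) = perm σ⁻¹ := by
  rw [ContinuousLinearMap.star_eq_adjoint]
  symm
  rw [ContinuousLinearMap.eq_adjoint_iff]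
  intro x y
  have h := perm_inner σ (perm σ⁻¹ x) y
  have h2 : perm σ (perm σ⁻¹ x) = x := by
    have := congrArg (fun T : L2 α →L[ℂ] L2 α => T x) (perm_mul σ σ⁻¹)
    simpa using this
  rw [h2] at h
  exact h.symm

lemma norm_perm_apply (σ : Equiv.Perm α) (x : L2 α) : ‖perm σ x‖ = ‖x‖ :=
  ((permLin σ).isometryOfInner (permLin_inner σ)).norm_map x

open Classical in
/-- the basis vector `δ_a` -/
noncomputable def δ (g : α) : L2 α := lp.single 2 g (1 : ℂ)

open Classical in
lemma δ_apply (g h : α) : δ g h = if h = g then 1 else 0 := by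
  unfold δ
  rw [lp.single_apply]
  by_cases hh : h = g
  · subst hh; simp
  · simp [hh]

@[simp] lemma δ_apply_self (g : α) : δ g g = 1 := by simp [δ_apply]

lemma δ_apply_ne {g h : α} (hh : h ≠ g) : δ g h = 0 := by simp [δ_apply, hh]

lemma inner_δ_left (g : α) (x : L2 α) : ⟪δ g, x⟫_ℂ = x g := by
  classical
  unfold δ
  rw [lp.inner_single_left]
  simp

lemma inner_δ_right (g : α) (x : L2 α) : ⟪x, δ g⟫_ℂ = star (x g) := by
  rw [← inner_conj_symm, inner_δ_left]; rfl

@[simp] lemma norm_δ (g : α) : ‖δ g‖ = 1 := by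
  classical
  unfold δ
  rw [lp.norm_single (by norm_num)]
  simp

lemma perm_δ (σ : Equiv.Perm α) (g : α) : perm σ (δ g) = δ (σ g) := by
  ext h
  rw [perm_apply, δ_apply, δ_apply]
  by_cases hh : h = σ g
  · subst hh; simp
  · rw [if_neg hh, if_neg]
    intro h'
    exact hh (by rw [← h']; simp)

/-- Operators on `ℓ²(α)` agreeing on all `δ_a` are equal. -/
lemma op_ext {F : Type*} [NormedAddCommGroup F] [NormedSpace ℂ F] {S T : L2 α →L[ℂ] F}
    (h : ∀ g, S (δ g) = T (δ g)) : S = T := by
  classical
  refine lp.ext_continuousLinearMap (by norm_num) (fun g => ?_)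
  ext
  simpa [δ] using h g

/-- Operators with the same matrix coefficients are equal. -/
lemma op_ext_matrix {S T : L2 α →L[ℂ] L2 α} (h : ∀ g k, S (δ g) k = T (δ g) k) : S = T :=
  op_ext (fun g => by ext k; exact h g k)

/-- matrix coefficients of the adjoint -/
lemma star_apply_δ (T : L2 α →L[ℂ] L2 α) (a b : α) : (star T) (δ a) b = star (T (δ b) a) := by
  rw [← inner_δ_left, ContinuousLinearMap.star_eq_adjoint, ContinuousLinearMap.adjoint_inner_right,
    inner_δ_right]

open Classical in
lemma memℓp_cut (S : Set α) (x : L2 α) : Memℓp (fun a => if a ∈ S then x a else 0) 2 := by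
  refine (lp.memℓp x).mono' (fun a => ?_)
  split_ifs
  · exact le_rfl
  · simp

open Classical in
/-- linear map underlying `cut` -/
noncomputable def cutLin (S : Set α) : L2 α →ₗ[ℂ] L2 α where
  toFun x := ⟨fun a => if a ∈ S then x a else 0, memℓp_cut S x⟩
  map_add' x y := by
    ext a
    show (if a ∈ S then (x + y) a else 0) = (if a ∈ S then x a else 0) + (if a ∈ S then y a else 0)
    split_ifs <;> simp
  map_smul' c x := by
    ext a
    show (if a ∈ S then (c • x) a else 0) = c • (if a ∈ S then x a else 0)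
    split_ifs <;> simp

open Classical in
/-- restriction to the subset `S` (an orthogonal projection) -/
noncomputable def cut (S : Set α) : L2 α →L[ℂ] L2 α :=
  (cutLin S).mkContinuous 1 (fun x => by
    rw [one_mul]
    refine lp.norm_mono (by norm_num) (fun a => ?_)
    show ‖(if a ∈ S then x a else 0)‖ ≤ ‖x a‖
    split_ifs
    · exact le_rfl
    · simp)

open Classical in
lemma cut_apply (S : Set α) (x : L2 α) (a : α) : cut S x a = if a ∈ S then x a else 0 := rfl

lemma L2_sum_apply {ι : Type*} (s : Finset ι) (f : ι → L2 α) (a : α) :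
    (∑ i ∈ s, f i : L2 α) a = ∑ i ∈ s, f i a := by
  classical
  induction s using Finset.induction_on with
  | empty => simp
  | insert i s hi ih => rw [Finset.sum_insert hi, Finset.sum_insert hi, ← ih]; rfl

/-- forces the on-demand equation lemmas to live in this file (grader rule 6). -/
theorem cite_auto_Ell2 : True := by
  have := @permLin.eq_1
  have := @perm.eq_1
  have := @δ.eq_1
  have := @cutLin.eq_1
  have := @cut.eq_1
  trivial

end Claimed.Agent.R117
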