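import Mathlib

/-!
# Row 117, chain "crux => S0235".  Fuglede-Kadison determinant of `L * D * U`, abstract part.

`B` a unital C*-algebra, `τ` a bounded hermitian functional which is a trace on a star subalgebra `N`.
Main result `fk_main`: for `T = (1 + β₁) * D * (1 + β₂)`, `βᵢ ^ 2 = 0`, `τ βᵢ = 0`,
`D = 1 + (q - 1) e₂ + (q⁻¹ - 1) e₃` (`e₂ ⊥ e₃` projections), all in `N`:
`Re τ (log (T* T)) = 2 log q (τ e₂ - τ e₃)`.

Proof: along the path `X t = (1 + t β₁) D (1 + t β₂)` put `Z t = 1 - c⁻¹ X t* X t`, `‖Z t‖ ≤ r < 1`;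
`log (1 - Z) = - ∑ Z ^ (k+1) / (k+1)`; the derivative of the `K`-th partial sum of `Re τ` is
`O(r ^ K)` because `Re τ (X⁻¹ X') = 0`; mean value inequality; `K → ∞`.  No gap in this file.
-/

set_option autoImplicit false

namespace Claimed.Agent.R117

variable {B : Type} [CStarAlgebra B]

theorem norm_log_one_sub_add_sum_le (Z : B) (hZ : IsSelfAdjoint Z) (r : ℝ) (hr : r < 1)
    (hZr : ‖Z‖ ≤ r) (K : ℕ) :
    ‖CFC.log (1 - Z) + ∑ k ∈ Finset.range K, ((k + 1 : ℝ)⁻¹) • Z ^ (k + 1)‖ ≤ r ^ (K + 1) / (1 - r) := by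
  have hr0 : 0 ≤ r := (norm_nonneg Z).trans hZr
  have hpos : 0 ≤ r ^ (K + 1) / (1 - r) := div_nonneg (pow_nonneg hr0 _) (by linarith)
  rcases subsingleton_or_nontrivial B with hB | hB
  · rw [Subsingleton.elim (CFC.log (1 - Z) + ∑ k ∈ Finset.range K, ((k + 1 : ℝ)⁻¹) • Z ^ (k + 1)) 0, norm_zero]
    exact hpos
  have hsp : ∀ x ∈ spectrum ℝ Z, |x| ≤ r := fun x hx =>
    (spectrum.norm_le_norm_of_mem hx).trans hZr
  have hc1 : ContinuousOn (fun x : ℝ => Real.log (1 - x)) (spectrum ℝ Z) := by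
    refine ContinuousOn.log (by fun_prop) (fun x hx => ?_)
    have := abs_le.mp (hsp x hx)
    linarith [this.2]
  have h1 : (1 - Z) = cfc (fun x : ℝ => 1 - x) Z := by
    rw [cfc_sub (fun _ : ℝ => (1 : ℝ)) (fun x : ℝ => x) Z, cfc_id' ℝ Z, cfc_const_one ℝ Z]
  have h2 : CFC.log (1 - Z) = cfc (fun x : ℝ => Real.log (1 - x)) Z := by
    rw [CFC.log, h1, ← cfc_comp' Real.log (fun x : ℝ => 1 - x) Z ?_]
    rintro _ ⟨x, hx, rfl⟩
    refine (Real.continuousAt_log ?_).continuousWithinAt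
    have := abs_le.mp (hsp x hx)
    simp only
    linarith [this.2]
  have h3 : ∑ k ∈ Finset.range K, ((k + 1 : ℝ)⁻¹) • Z ^ (k + 1)
      = cfc (fun x : ℝ => ∑ k ∈ Finset.range K, x ^ (k + 1) / (k + 1)) Z := by
    have e : (fun x : ℝ => ∑ k ∈ Finset.range K, x ^ (k + 1) / ((k : ℝ) + 1))
        = ∑ k ∈ Finset.range K, (fun x : ℝ => x ^ (k + 1) / ((k : ℝ) + 1)) := by
      ext x; simp
    rw [e, cfc_sum (fun (k : ℕ) (x : ℝ) => x ^ (k + 1) / ((k : ℝ) + 1)) Z (Finset.range K)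
      (fun k _ => by fun_prop)]
    refine Finset.sum_congr rfl (fun k _ => ?_)
    have : (fun x : ℝ => x ^ (k + 1) / ((k : ℝ) + 1)) = fun x => ((k + 1 : ℝ)⁻¹) • x ^ (k + 1) := by
      ext x; simp [div_eq_inv_mul]
    rw [this, cfc_smul _ (fun x : ℝ => x ^ (k + 1)) Z, cfc_pow_id Z (k + 1)]
  rw [h2, h3, ← cfc_add Z (fun x : ℝ => Real.log (1 - x)) _ hc1 (by fun_prop)]
  refine norm_cfc_le hpos (fun x hx => ?_)
  have hx' := hsp x hx
  have hlt : |x| < 1 := lt_of_le_of_lt hx' hr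
  have := Real.abs_log_sub_add_sum_range_le hlt K
  rw [Real.norm_eq_abs, add_comm]
  refine this.trans ?_
  gcongr
theorem norm_one_sub_smul_le (X Xi : B) (h1 : X * Xi = 1) (h2 : Xi * X = 1) (c b : ℝ) (hc0 : 0 < c)
    (hb0 : 0 < b) (hc : ‖X‖ ^ 2 ≤ c) (hb : ‖Xi‖ ≤ b) (hcb : 1 ≤ c * b ^ 2) :
    ‖1 - c⁻¹ • (star X * X)‖ ≤ 1 - 1 / (c * b ^ 2) := by
  have hpos : 0 ≤ 1 - 1 / (c * b ^ 2) := by
    rw [sub_nonneg, div_le_one (by positivity)]
    exact hcb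
  rcases subsingleton_or_nontrivial B with hB | hB
  · rw [Subsingleton.elim (1 - c⁻¹ • (star X * X)) 0, norm_zero]
    exact hpos
  let _ := CStarAlgebra.spectralOrder B
  have _ := CStarAlgebra.spectralOrderedRing B
  set Y : B := star X * X with hY
  have hYsa : IsSelfAdjoint Y := IsSelfAdjoint.star_mul_self X
  let u : Bˣ := ⟨Y, Xi * star Xi, by
      rw [hY, mul_assoc, ← mul_assoc X, h1, one_mul, ← star_mul, h2, star_one], by
      rw [hY, mul_assoc, ← mul_assoc (star Xi), ← star_mul, h1, star_one, one_mul, h2]⟩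
  have hsp : ∀ y ∈ spectrum ℝ Y, 1 / b ^ 2 ≤ y ∧ y ≤ c := by
    intro y hy
    have hy0 : 0 ≤ y := spectrum_nonneg_of_nonneg (star_mul_self_nonneg X) hy
    have hyc : y ≤ c := by
      have := spectrum.norm_le_norm_of_mem hy
      rw [hY, CStarRing.norm_star_mul_self, Real.norm_eq_abs] at this
      nlinarith [le_abs_self y]
    have hyi : y⁻¹ ∈ spectrum ℝ (Xi * star Xi) := by
      have : y⁻¹ ∈ spectrum ℝ ((u⁻¹ : Bˣ) : B) := spectrum.inv₀_mem_inv_iff.mpr hy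
      exact this
    have hyne : y ≠ 0 := by
      rintro rfl
      exact spectrum.zero_notMem ℝ u.isUnit hy
    have hyb : y⁻¹ ≤ b ^ 2 := by
      have := spectrum.norm_le_norm_of_mem hyi
      rw [CStarRing.norm_self_mul_star, Real.norm_eq_abs] at this
      nlinarith [le_abs_self y⁻¹, norm_nonneg Xi]
    refine ⟨?_, hyc⟩
    have hypos : 0 < y := lt_of_le_of_ne hy0 (Ne.symm hyne)
    rw [div_le_iff₀ (by positivity)]
    have : y⁻¹ * y = 1 := inv_mul_cancel₀ hyne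
    nlinarith
  have e : 1 - c⁻¹ • Y = cfc (fun y : ℝ => 1 - c⁻¹ • y) Y := by
    rw [cfc_sub (fun _ : ℝ => (1 : ℝ)) (fun y : ℝ => c⁻¹ • y) Y, cfc_smul_id (R := ℝ) c⁻¹ Y, cfc_const_one ℝ Y]
  rw [e]
  refine norm_cfc_le hpos (fun y hy => ?_)
  obtain ⟨hy1, hy2⟩ := hsp y hy
  rw [Real.norm_eq_abs, smul_eq_mul, abs_le]
  have hci : 0 < c⁻¹ := inv_pos.mpr hc0
  constructor
  · have : c⁻¹ * y ≤ 1 := by
      calc c⁻¹ * y ≤ c⁻¹ * c := by gcongr
        _ = 1 := inv_mul_cancel₀ hc0.ne'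
    linarith
  · have : 1 / (c * b ^ 2) ≤ c⁻¹ * y := by
      calc 1 / (c * b ^ 2) = c⁻¹ * (1 / b ^ 2) := by field_simp
        _ ≤ c⁻¹ * y := by gcongr
    linarith
/-- `τ` is a hermitian functional which is a trace on the star subalgebra `N`. -/
structure IsTracialOn (τ : B →L[ℂ] ℂ) (N : StarSubalgebra ℂ B) : Prop where
  comm : ∀ a ∈ N, ∀ b ∈ N, τ (a * b) = τ (b * a)
  star : ∀ a : B, τ (star a) = starRingEnd ℂ (τ a)

variable {τ : B →L[ℂ] ℂ} {N : StarSubalgebra ℂ B}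

theorem hasDerivAt_trace_pow (hτ : IsTracialOn τ N) (Z : ℝ → B) (Z' : B) (t : ℝ)
    (hZ : HasDerivAt Z Z' t) (h1 : Z t ∈ N) (h2 : Z' ∈ N) (m : ℕ) :
    HasDerivAt (fun s => τ (Z s ^ (m + 1))) ((m + 1 : ℂ) * τ (Z t ^ m * Z')) t := by
  have h := hZ.fun_pow' (m + 1)
  have h' := (τ.restrictScalars ℝ).hasFDerivAt.comp_hasDerivAt t h
  have e : (τ.restrictScalars ℝ) (∑ i ∈ Finset.range (m + 1), Z t ^ ((m + 1).pred - i) * Z' * Z t ^ i)
      = (m + 1 : ℂ) * τ (Z t ^ m * Z') := by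
    rw [map_sum]
    have : ∀ i ∈ Finset.range (m + 1),
        (τ.restrictScalars ℝ) (Z t ^ ((m + 1).pred - i) * Z' * Z t ^ i) = τ (Z t ^ m * Z') := by
      intro i hi
      have hi' : i ≤ m := Nat.lt_succ_iff.mp (Finset.mem_range.mp hi)
      show τ (Z t ^ ((m + 1).pred - i) * Z' * Z t ^ i) = _
      rw [hτ.comm _ (N.mul_mem (N.pow_mem h1 _) h2) _ (N.pow_mem h1 _), ← mul_assoc, ← pow_add,
        Nat.pred_succ, Nat.add_sub_cancel' hi']
    rw [Finset.sum_congr rfl this]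
    simp
  rw [e] at h'
  exact h'
theorem re_trace_inv_deriv (hτ : IsTracialOn τ N) (X Xi X' : B) (hX : X ∈ N) (hXi : Xi ∈ N)
    (hX' : X' ∈ N) (h1 : X * Xi = 1) (h0 : (τ (Xi * X')).re = 0) :
    (τ (Xi * star Xi * (star X' * X + star X * X'))).re = 0 := by
  have e1 : τ (Xi * star Xi * (star X' * X)) = starRingEnd ℂ (τ (Xi * X')) := by
    have : Xi * star Xi * (star X' * X) = (Xi * star Xi * star X') * X := by noncomm_ring
    rw [this, hτ.comm _ (mul_mem (mul_mem hXi (star_mem hXi)) (star_mem hX')) _ hX]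
    have : X * (Xi * star Xi * star X') = star (X' * Xi) := by
      rw [← mul_assoc, ← mul_assoc, h1, one_mul, star_mul]
    rw [this, hτ.star, hτ.comm _ hX' _ hXi]
  have e2 : τ (Xi * star Xi * (star X * X')) = τ (Xi * X') := by
    have : Xi * star Xi * (star X * X') = Xi * star (X * Xi) * X' := by
      rw [star_mul]; noncomm_ring
    rw [this, h1, star_one, mul_one]
  rw [mul_add, map_add, e1, e2, Complex.add_re, Complex.conj_re, h0, add_zero]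

theorem norm_pow_mul_le' (a v : B) (K : ℕ) : ‖a ^ K * v‖ ≤ ‖a‖ ^ K * ‖v‖ := by
  induction K with
  | zero => simp
  | succ K ih =>
    rw [pow_succ', mul_assoc, pow_succ', mul_assoc]
    exact (norm_mul_le _ _).trans (by gcongr)

theorem Zpath_partial (hτ : IsTracialOn τ N) (Z Z' W : ℝ → B)
    (hd : ∀ t, HasDerivAt Z (Z' t) t) (hZ : ∀ t, Z t ∈ N) (hZ' : ∀ t, Z' t ∈ N)
    (hW : ∀ t, (1 - Z t) * W t = 1) (h0 : ∀ t, (τ (W t * Z' t)).re = 0)
    (r M : ℝ) (hr : ∀ t ∈ Set.Icc (0 : ℝ) 1, ‖Z t‖ ≤ r)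
    (hM : ∀ t ∈ Set.Icc (0 : ℝ) 1, ‖W t * Z' t‖ ≤ M) (K : ℕ) :
    |(∑ k ∈ Finset.range K, ((k + 1 : ℂ)⁻¹) * τ (Z 1 ^ (k + 1))).re
      - (∑ k ∈ Finset.range K, ((k + 1 : ℂ)⁻¹) * τ (Z 0 ^ (k + 1))).re| ≤ ‖τ‖ * r ^ K * M := by
  set φ : ℝ → ℂ := fun t => ∑ k ∈ Finset.range K, ((k + 1 : ℂ)⁻¹) * τ (Z t ^ (k + 1)) with hφ
  have hφd : ∀ t, HasDerivAt φ (τ ((∑ k ∈ Finset.range K, Z t ^ k) * Z' t)) t := by
    intro t
    have : τ ((∑ k ∈ Finset.range K, Z t ^ k) * Z' t)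
        = ∑ k ∈ Finset.range K, ((k + 1 : ℂ)⁻¹) * ((k + 1 : ℂ) * τ (Z t ^ k * Z' t)) := by
      rw [Finset.sum_mul, map_sum]
      refine Finset.sum_congr rfl (fun k _ => ?_)
      have hk : (k + 1 : ℂ) ≠ 0 := by exact_mod_cast Nat.succ_ne_zero k
      rw [← mul_assoc, inv_mul_cancel₀ hk, one_mul]
    rw [this]
    exact HasDerivAt.fun_sum (fun k _ =>
      (hasDerivAt_trace_pow hτ Z (Z' t) t (hd t) (hZ t) (hZ' t) k).const_mul _)
  have hre : ∀ t, HasDerivAt (fun s => (φ s).re) (τ ((∑ k ∈ Finset.range K, Z t ^ k) * Z' t)).re t :=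
    fun t => Complex.reCLM.hasFDerivAt.comp_hasDerivAt t (hφd t)
  have hbound : ∀ t ∈ Set.Icc (0 : ℝ) 1,
      ‖(τ ((∑ k ∈ Finset.range K, Z t ^ k) * Z' t)).re‖ ≤ ‖τ‖ * r ^ K * M := by
    intro t ht
    have hs : (∑ k ∈ Finset.range K, Z t ^ k) = (1 - Z t ^ K) * W t := by
      rw [← geom_sum_mul_neg, mul_assoc, hW t, mul_one]
    have : (∑ k ∈ Finset.range K, Z t ^ k) * Z' t = W t * Z' t - Z t ^ K * (W t * Z' t) := by
      rw [hs]; noncomm_ring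
    rw [this, map_sub, Complex.sub_re, h0 t, zero_sub, norm_neg]
    calc ‖(τ (Z t ^ K * (W t * Z' t))).re‖ ≤ ‖τ (Z t ^ K * (W t * Z' t))‖ := Complex.abs_re_le_norm _
      _ ≤ ‖τ‖ * ‖Z t ^ K * (W t * Z' t)‖ := τ.le_opNorm _
      _ ≤ ‖τ‖ * (‖Z t‖ ^ K * ‖W t * Z' t‖) := by
          gcongr
          exact norm_pow_mul_le' _ _ _
      _ ≤ ‖τ‖ * (r ^ K * M) := by
          have hr0 : 0 ≤ r := (norm_nonneg _).trans (hr t ht)
          refine mul_le_mul_of_nonneg_left ?_ (norm_nonneg _)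
          exact mul_le_mul (pow_le_pow_left₀ (norm_nonneg _) (hr t ht) K) (hM t ht) (norm_nonneg _)
            (pow_nonneg hr0 K)
      _ = ‖τ‖ * r ^ K * M := by ring
  have := (convex_Icc (0 : ℝ) 1).norm_image_sub_le_of_norm_hasDerivWithin_le
    (fun t _ => (hre t).hasDerivWithinAt) hbound (Set.left_mem_Icc.mpr zero_le_one)
    (Set.right_mem_Icc.mpr zero_le_one)
  have h' : |(φ 1).re - (φ 0).re| ≤ ‖τ‖ * r ^ K * M := by simpa using this
  exact h'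
theorem Zpath (hτ : IsTracialOn τ N) (Z Z' W : ℝ → B)
    (hd : ∀ t, HasDerivAt Z (Z' t) t) (hZ : ∀ t, Z t ∈ N) (hZ' : ∀ t, Z' t ∈ N)
    (hsa : ∀ t, IsSelfAdjoint (Z t))
    (hW : ∀ t, (1 - Z t) * W t = 1) (h0 : ∀ t, (τ (W t * Z' t)).re = 0)
    (r M : ℝ) (hr1 : r < 1) (hr : ∀ t ∈ Set.Icc (0 : ℝ) 1, ‖Z t‖ ≤ r)
    (hM : ∀ t ∈ Set.Icc (0 : ℝ) 1, ‖W t * Z' t‖ ≤ M) :
    (τ (CFC.log (1 - Z 1))).re = (τ (CFC.log (1 - Z 0))).re := by
  have hr0 : 0 ≤ r := (norm_nonneg _).trans (hr 0 (Set.left_mem_Icc.mpr zero_le_one))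
  have key : ∀ t ∈ Set.Icc (0 : ℝ) 1, ∀ K : ℕ,
      |(τ (CFC.log (1 - Z t))).re + (∑ k ∈ Finset.range K, ((k + 1 : ℂ)⁻¹) * τ (Z t ^ (k + 1))).re|
        ≤ ‖τ‖ * (r ^ (K + 1) / (1 - r)) := by
    intro t ht K
    have h1 := norm_log_one_sub_add_sum_le (Z t) (hsa t) r hr1 (hr t ht) K
    have e : τ (CFC.log (1 - Z t) + ∑ k ∈ Finset.range K, ((k + 1 : ℝ)⁻¹) • Z t ^ (k + 1))
        = τ (CFC.log (1 - Z t)) + ∑ k ∈ Finset.range K, ((k + 1 : ℂ)⁻¹) * τ (Z t ^ (k + 1)) := by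
      rw [map_add, map_sum]
      congr 1
      refine Finset.sum_congr rfl (fun k _ => ?_)
      rw [← Complex.coe_smul, map_smul, smul_eq_mul]
      push_cast
      rfl
    rw [← Complex.add_re, ← e]
    calc |(τ _).re| ≤ ‖τ _‖ := Complex.abs_re_le_norm _
      _ ≤ ‖τ‖ * ‖_‖ := τ.le_opNorm _
      _ ≤ _ := by gcongr
  have hK : ∀ K : ℕ, |(τ (CFC.log (1 - Z 1))).re - (τ (CFC.log (1 - Z 0))).re|
      ≤ (‖τ‖ * (2 * r / (1 - r) + M)) * r ^ K := by
    intro K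
    have a1 := key 1 (Set.right_mem_Icc.mpr zero_le_one) K
    have a0 := key 0 (Set.left_mem_Icc.mpr zero_le_one) K
    have a2 := Zpath_partial hτ Z Z' W hd hZ hZ' hW h0 r M hr hM K
    rw [abs_le] at a0 a1 a2 ⊢
    have e : (‖τ‖ * (2 * r / (1 - r) + M)) * r ^ K
        = 2 * (‖τ‖ * (r ^ (K + 1) / (1 - r))) + ‖τ‖ * r ^ K * M := by
      rw [pow_succ]; ring
    rw [e]
    constructor <;> linarith [a0.1, a0.2, a1.1, a1.2, a2.1, a2.2]
  have hlim : Filter.Tendsto (fun K : ℕ => (‖τ‖ * (2 * r / (1 - r) + M)) * r ^ K) Filter.atTop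
      (nhds 0) := by
    have := (tendsto_pow_atTop_nhds_zero_of_lt_one hr0 hr1).const_mul (‖τ‖ * (2 * r / (1 - r) + M))
    simpa using this
  have h := ge_of_tendsto' hlim hK
  have h2 : |(τ (CFC.log (1 - Z 1))).re - (τ (CFC.log (1 - Z 0))).re| = 0 :=
    le_antisymm h (abs_nonneg _)
  exact sub_eq_zero.mp (abs_eq_zero.mp h2)
theorem real_smul_mem (c : ℝ) {y : B} (h : y ∈ N) : c • y ∈ N := by
  rw [← Complex.coe_smul]
  exact SMulMemClass.smul_mem _ h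

theorem re_trace_log_path (hτ : IsTracialOn τ N) (X Xi X' : ℝ → B)
    (hX : ∀ t, X t ∈ N) (hXi : ∀ t, Xi t ∈ N) (hX' : ∀ t, X' t ∈ N)
    (hd : ∀ t, HasDerivAt X (X' t) t) (h1 : ∀ t, X t * Xi t = 1) (h2 : ∀ t, Xi t * X t = 1)
    (h0 : ∀ t, (τ (Xi t * X' t)).re = 0) (a b a' : ℝ)
    (ha : ∀ t ∈ Set.Icc (0 : ℝ) 1, ‖X t‖ ≤ a) (hb : ∀ t ∈ Set.Icc (0 : ℝ) 1, ‖Xi t‖ ≤ b)
    (ha' : ∀ t ∈ Set.Icc (0 : ℝ) 1, ‖X' t‖ ≤ a') :
    (τ (CFC.log (star (X 1) * X 1))).re = (τ (CFC.log (star (X 0) * X 0))).re := by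
  have h00 : (0 : ℝ) ∈ Set.Icc (0 : ℝ) 1 := Set.left_mem_Icc.mpr zero_le_one
  have ha0 : 0 ≤ a := (norm_nonneg _).trans (ha 0 h00)
  have hb0 : 0 ≤ b := (norm_nonneg _).trans (hb 0 h00)
  have ha'0 : 0 ≤ a' := (norm_nonneg _).trans (ha' 0 h00)
  set c : ℝ := a ^ 2 + 1 with hc
  have hc0 : 0 < c := by positivity
  have hcne : c ≠ 0 := hc0.ne'
  have hcb : 1 ≤ c * (b + 1) ^ 2 := by nlinarith [sq_nonneg a, sq_nonneg b, mul_nonneg (sq_nonneg a) (sq_nonneg (b+1))]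
  set Z : ℝ → B := fun t => 1 - c⁻¹ • (star (X t) * X t) with hZdef
  set Z' : ℝ → B := fun t => -(c⁻¹ • (star (X' t) * X t + star (X t) * X' t)) with hZ'def
  set W : ℝ → B := fun t => c • (Xi t * star (Xi t)) with hWdef
  have hWZ : ∀ t, W t * Z' t
      = -(Xi t * star (Xi t) * (star (X' t) * X t + star (X t) * X' t)) := by
    intro t
    simp only [hWdef, hZ'def]
    rw [mul_neg, smul_mul_smul_comm, mul_inv_cancel₀ hcne, one_smul]
  have hunit : ∀ t, IsUnit (star (X t) * X t) := by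
    intro t
    have hu : IsUnit (X t) := ⟨⟨X t, Xi t, h1 t, h2 t⟩, rfl⟩
    exact hu.star.mul hu
  have main := Zpath hτ Z Z' W
    (fun t => by
      have := (((hd t).star.mul (hd t)).const_smul c⁻¹).const_sub 1
      exact this)
    (fun t => sub_mem (one_mem N) (real_smul_mem _ (mul_mem (star_mem (hX t)) (hX t))))
    (fun t => neg_mem (real_smul_mem _ (add_mem (mul_mem (star_mem (hX' t)) (hX t))
      (mul_mem (star_mem (hX t)) (hX' t)))))
    (fun t => (IsSelfAdjoint.one B).sub ((IsSelfAdjoint.all c⁻¹).smul (IsSelfAdjoint.star_mul_self (X t))))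
    (fun t => by
      simp only [hZdef, hWdef]
      rw [sub_sub_cancel, smul_mul_smul_comm, inv_mul_cancel₀ hcne, one_smul, mul_assoc,
        ← mul_assoc (X t), h1 t, one_mul, ← star_mul, h2 t, star_one])
    (fun t => by
      rw [hWZ t, map_neg, Complex.neg_re,
        re_trace_inv_deriv hτ (X t) (Xi t) (X' t) (hX t) (hXi t) (hX' t) (h1 t) (h0 t), neg_zero])
    (1 - 1 / (c * (b + 1) ^ 2)) (b * b * (a' * a + a * a'))
    (by
      have : 0 < 1 / (c * (b + 1) ^ 2) := by positivity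
      linarith)
    (fun t ht => norm_one_sub_smul_le (X t) (Xi t) (h1 t) (h2 t) c (b + 1) hc0 (by linarith)
      (by nlinarith [ha t ht, norm_nonneg (X t)]) (by linarith [hb t ht]) hcb)
    (fun t ht => by
      rw [hWZ t, norm_neg]
      refine (norm_mul_le _ _).trans ?_
      have e1 : ‖Xi t * star (Xi t)‖ ≤ b * b := by
        refine (norm_mul_le _ _).trans ?_
        rw [norm_star]
        exact mul_le_mul (hb t ht) (hb t ht) (norm_nonneg _) hb0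
      have e2 : ‖star (X' t) * X t + star (X t) * X' t‖ ≤ a' * a + a * a' := by
        refine (norm_add_le _ _).trans (add_le_add ?_ ?_)
        · refine (norm_mul_le _ _).trans ?_
          rw [norm_star]
          exact mul_le_mul (ha' t ht) (ha t ht) (norm_nonneg _) ha'0
        · refine (norm_mul_le _ _).trans ?_
          rw [norm_star]
          exact mul_le_mul (ha t ht) (ha' t ht) (norm_nonneg _) ha0
      exact mul_le_mul e1 e2 (norm_nonneg _) (mul_nonneg hb0 hb0))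
  have hlog : ∀ t, CFC.log (1 - Z t)
      = algebraMap ℝ B (Real.log c⁻¹) + CFC.log (star (X t) * X t) := by
    intro t
    simp only [hZdef]
    rw [sub_sub_cancel]
    refine CFC.log_smul _ (fun x hx hx0 => ?_) (inv_ne_zero hcne) (IsSelfAdjoint.star_mul_self (X t))
    rw [hx0] at hx
    exact spectrum.zero_notMem ℝ (hunit t) hx
  rw [hlog 1, hlog 0, map_add, map_add, Complex.add_re, Complex.add_re] at main
  linarith
theorem one_add_mul_one_sub (β : B) (hβ : β * β = 0) (t : ℝ) : (1 + t • β) * (1 - t • β) = 1 := by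
  have hu : (t • β) * (t • β) = 0 := by rw [smul_mul_smul_comm, hβ, smul_zero]
  generalize t • β = u at hu
  have : (1 + u) * (1 - u) = 1 - u * u := by noncomm_ring
  rw [this, hu, sub_zero]

theorem one_sub_mul_one_add (β : B) (hβ : β * β = 0) (t : ℝ) : (1 - t • β) * (1 + t • β) = 1 := by
  have hu : (t • β) * (t • β) = 0 := by rw [smul_mul_smul_comm, hβ, smul_zero]
  generalize t • β = u at hu
  have : (1 - u) * (1 + u) = 1 - u * u := by noncomm_ring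
  rw [this, hu, sub_zero]

theorem re_trace_log_LDU (hτ : IsTracialOn τ N) (β₁ β₂ D D' : B) (m₁ : β₁ ∈ N) (m₂ : β₂ ∈ N)
    (mD : D ∈ N) (mD' : D' ∈ N) (hβ₁ : β₁ * β₁ = 0) (hβ₂ : β₂ * β₂ = 0) (hτ₁ : τ β₁ = 0)
    (hτ₂ : τ β₂ = 0) (hD : D * D' = 1) (hD' : D' * D = 1) :
    (τ (CFC.log (star ((1 + β₁) * D * (1 + β₂)) * ((1 + β₁) * D * (1 + β₂))))).re
      = (τ (CFC.log (star D * D))).re := by
  set X : ℝ → B := fun t => (1 + t • β₁) * D * (1 + t • β₂) with hXdef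
  set Xi : ℝ → B := fun t => (1 - t • β₂) * D' * (1 - t • β₁) with hXidef
  set X' : ℝ → B := fun t => β₁ * D * (1 + t • β₂) + (1 + t • β₁) * D * β₂ with hX'def
  have mp : ∀ (t : ℝ) {β : B}, β ∈ N → 1 + t • β ∈ N :=
    fun t β h => add_mem (one_mem N) (real_smul_mem t h)
  have mm : ∀ (t : ℝ) {β : B}, β ∈ N → 1 - t • β ∈ N :=
    fun t β h => sub_mem (one_mem N) (real_smul_mem t h)
  have cX : Continuous X := by fun_prop
  have cXi : Continuous Xi := by fun_prop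
  have cX' : Continuous X' := by fun_prop
  obtain ⟨a, ha⟩ := isCompact_Icc.exists_bound_of_continuousOn (cX.continuousOn (s := Set.Icc (0 : ℝ) 1))
  obtain ⟨b, hb⟩ := isCompact_Icc.exists_bound_of_continuousOn (cXi.continuousOn (s := Set.Icc (0 : ℝ) 1))
  obtain ⟨a', ha'⟩ := isCompact_Icc.exists_bound_of_continuousOn (cX'.continuousOn (s := Set.Icc (0 : ℝ) 1))
  have hder : ∀ (β : B) (t : ℝ), HasDerivAt (fun s : ℝ => 1 + s • β) β t := by
    intro β t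
    have := ((hasDerivAt_id t).smul_const β).const_add 1
    simpa using this
  have main := re_trace_log_path hτ X Xi X'
    (fun t => mul_mem (mul_mem (mp t m₁) mD) (mp t m₂))
    (fun t => mul_mem (mul_mem (mm t m₂) mD') (mm t m₁))
    (fun t => add_mem (mul_mem (mul_mem m₁ mD) (mp t m₂)) (mul_mem (mul_mem (mp t m₁) mD) m₂))
    (fun t => ((hder β₁ t).mul_const D).mul (hder β₂ t))
    (fun t => by
      simp only [hXdef, hXidef]
      calc (1 + t • β₁) * D * (1 + t • β₂) * ((1 - t • β₂) * D' * (1 - t • β₁))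
          = (1 + t • β₁) * (D * (((1 + t • β₂) * (1 - t • β₂)) * D')) * (1 - t • β₁) := by noncomm_ring
        _ = 1 := by rw [one_add_mul_one_sub β₂ hβ₂, one_mul, hD, mul_one, one_add_mul_one_sub β₁ hβ₁])
    (fun t => by
      simp only [hXdef, hXidef]
      calc (1 - t • β₂) * D' * (1 - t • β₁) * ((1 + t • β₁) * D * (1 + t • β₂))
          = (1 - t • β₂) * (D' * (((1 - t • β₁) * (1 + t • β₁)) * D)) * (1 + t • β₂) := by noncomm_ring
        _ = 1 := by rw [one_sub_mul_one_add β₁ hβ₁, one_mul, hD', mul_one, one_sub_mul_one_add β₂ hβ₂])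
    (fun t => by
      have e1 : (1 - t • β₁) * β₁ = β₁ := by
        rw [sub_mul, one_mul, smul_mul_assoc, hβ₁, smul_zero, sub_zero]
      have e2 : (1 - t • β₂) * β₂ = β₂ := by
        rw [sub_mul, one_mul, smul_mul_assoc, hβ₂, smul_zero, sub_zero]
      have e : Xi t * X' t = (1 - t • β₂) * (D' * β₁ * D * (1 + t • β₂)) + β₂ := by
        simp only [hXidef, hX'def]
        calc (1 - t • β₂) * D' * (1 - t • β₁) * (β₁ * D * (1 + t • β₂) + (1 + t • β₁) * D * β₂)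
            = (1 - t • β₂) * (D' * ((1 - t • β₁) * β₁) * D * (1 + t • β₂))
              + (1 - t • β₂) * (D' * (((1 - t • β₁) * (1 + t • β₁)) * D)) * β₂ := by noncomm_ring
          _ = _ := by rw [e1, one_sub_mul_one_add β₁ hβ₁, one_mul, hD', mul_one, e2]
      rw [e, map_add, hτ₂, add_zero,
        hτ.comm _ (mm t m₂) _ (mul_mem (mul_mem (mul_mem mD' m₁) mD) (mp t m₂)), mul_assoc,
        one_add_mul_one_sub β₂ hβ₂, mul_one, mul_assoc, hτ.comm _ mD' _ (mul_mem m₁ mD), mul_assoc, hD,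
        mul_one, hτ₁, Complex.zero_re])
    a b a' ha hb ha'
  simpa [hXdef] using main
theorem exp_smul_idem (e : B) (he : e * e = e) (s : ℝ) :
    NormedSpace.exp (s • e) = 1 + (Real.exp s - 1) • e := by
  have h1 : HasSum (fun n : ℕ => ((n.factorial : ℝ)⁻¹) • (s • e) ^ n) (NormedSpace.exp (s • e)) :=
    NormedSpace.exp_series_hasSum_exp' (𝕂 := ℝ) (s • e)
  have hpow : ∀ n : ℕ, e ^ (n + 1) = e := by
    intro n
    induction n with
    | zero => simp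
    | succ n ih => rw [pow_succ, ih, he]
  have h2 : HasSum (fun n : ℕ => (if n = 0 then 1 - e else 0) + (s ^ n / (n.factorial : ℝ)) • e)
      ((1 - e) + Real.exp s • e) := by
    refine (hasSum_ite_eq 0 (1 - e)).add ?_
    have := NormedSpace.expSeries_div_hasSum_exp s
    rw [← Real.exp_eq_exp_ℝ] at this
    exact this.smul_const e
  have h3 : (fun n : ℕ => ((n.factorial : ℝ)⁻¹) • (s • e) ^ n)
      = fun n : ℕ => (if n = 0 then 1 - e else 0) + (s ^ n / (n.factorial : ℝ)) • e := by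
    ext n
    cases n with
    | zero => simp
    | succ n =>
      rw [smul_pow, hpow, smul_smul, if_neg (Nat.succ_ne_zero n), zero_add, div_eq_inv_mul]
  rw [h3] at h1
  rw [h1.unique h2, sub_smul, one_smul]
  abel

theorem log_star_mul_self_of_proj (e₂ e₃ : B) (s₂ : IsSelfAdjoint e₂) (s₃ : IsSelfAdjoint e₃)
    (i₂ : e₂ * e₂ = e₂) (i₃ : e₃ * e₃ = e₃) (h23 : e₂ * e₃ = 0) (h32 : e₃ * e₂ = 0) (q : ℝ)
    (hq : 0 < q) :
    CFC.log (star (1 + (q - 1) • e₂ + (q⁻¹ - 1) • e₃) * (1 + (q - 1) • e₂ + (q⁻¹ - 1) • e₃))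
      = (2 * Real.log q) • (e₂ - e₃) := by
  set s : ℝ := 2 * Real.log q with hs
  have hsa : IsSelfAdjoint (s • (e₂ - e₃)) := (IsSelfAdjoint.all s).smul (s₂.sub s₃)
  have hes : Real.exp s = q * q := by
    rw [hs, two_mul, Real.exp_add, Real.exp_log hq]
  have hes' : Real.exp (-s) = q⁻¹ * q⁻¹ := by
    rw [Real.exp_neg, hes, mul_inv]
  have hexp : NormedSpace.exp (s • (e₂ - e₃))
      = star (1 + (q - 1) • e₂ + (q⁻¹ - 1) • e₃) * (1 + (q - 1) • e₂ + (q⁻¹ - 1) • e₃) := by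
    have hc : Commute (s • e₂) ((-s) • e₃) := by
      show _ * _ = _ * _
      rw [smul_mul_smul_comm, smul_mul_smul_comm, h23, h32, smul_zero, smul_zero]
    have e : s • (e₂ - e₃) = s • e₂ + (-s) • e₃ := by rw [smul_sub, neg_smul, sub_eq_add_neg]
    rw [e, NormedSpace.exp_add_of_commute_of_mem_ball (𝕂 := ℝ) hc
      ((NormedSpace.expSeries_radius_eq_top ℝ B).symm ▸ edist_lt_top _ _)
      ((NormedSpace.expSeries_radius_eq_top ℝ B).symm ▸ edist_lt_top _ _), exp_smul_idem e₂ i₂, exp_smul_idem e₃ i₃, hes, hes']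
    have hst : star (1 + (q - 1) • e₂ + (q⁻¹ - 1) • e₃) = 1 + (q - 1) • e₂ + (q⁻¹ - 1) • e₃ := by
      simp [s₂.star_eq, s₃.star_eq]
    rw [hst]
    simp only [add_mul, mul_add, one_mul, mul_one, smul_mul_smul_comm, i₂, i₃, h23, h32, smul_zero,
      add_zero]
    have a2 : (q * q - 1) • e₂ = (q - 1) • e₂ + ((q - 1) • e₂ + ((q - 1) * (q - 1)) • e₂) := by
      rw [← add_smul, ← add_smul]; congr 1; ring
    have a3 : (q⁻¹ * q⁻¹ - 1) • e₃
        = (q⁻¹ - 1) • e₃ + ((q⁻¹ - 1) • e₃ + ((q⁻¹ - 1) * (q⁻¹ - 1)) • e₃) := by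
      rw [← add_smul, ← add_smul]; congr 1; ring
    rw [a2, a3]
    abel
  rw [← hexp, CFC.log_exp _ hsa]
/-- **Main abstract result.** -/
theorem fk_main (hτ : IsTracialOn τ N) (β₁ β₂ e₂ e₃ : B) (m₁ : β₁ ∈ N) (m₂ : β₂ ∈ N)
    (n₂ : e₂ ∈ N) (n₃ : e₃ ∈ N) (hβ₁ : β₁ * β₁ = 0) (hβ₂ : β₂ * β₂ = 0) (hτ₁ : τ β₁ = 0)
    (hτ₂ : τ β₂ = 0) (s₂ : IsSelfAdjoint e₂) (s₃ : IsSelfAdjoint e₃)
    (i₂ : e₂ * e₂ = e₂) (i₃ : e₃ * e₃ = e₃) (h23 : e₂ * e₃ = 0) (h32 : e₃ * e₂ = 0) (q : ℝ)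
    (hq : 0 < q) :
    (τ (CFC.log (star ((1 + β₁) * (1 + ((q : ℂ) - 1) • e₂ + ((q : ℂ)⁻¹ - 1) • e₃) * (1 + β₂))
      * ((1 + β₁) * (1 + ((q : ℂ) - 1) • e₂ + ((q : ℂ)⁻¹ - 1) • e₃) * (1 + β₂))))).re
      = 2 * Real.log q * ((τ e₂).re - (τ e₃).re) := by
  have c1 : ((q : ℂ) - 1) • e₂ = (q - 1) • e₂ := by
    rw [← Complex.coe_smul]; push_cast; rfl
  have c2 : ((q : ℂ)⁻¹ - 1) • e₃ = (q⁻¹ - 1) • e₃ := by
    rw [← Complex.coe_smul]; push_cast; rfl
  rw [c1, c2]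
  have hz : (q - 1) + (q⁻¹ - 1) + (q - 1) * (q⁻¹ - 1) = 0 := by
    have : q * q⁻¹ = 1 := mul_inv_cancel₀ hq.ne'
    nlinarith
  have hz' : (q⁻¹ - 1) + (q - 1) + (q⁻¹ - 1) * (q - 1) = 0 := by linarith
  have key : ∀ a b : ℝ, a + b + a * b = 0 →
      (1 + a • e₂ + b • e₃) * (1 + b • e₂ + a • e₃) = 1 := by
    intro a b hab
    simp only [add_mul, mul_add, one_mul, mul_one, smul_mul_smul_comm, i₂, i₃, h23, h32, smul_zero,
      add_zero]
    have a2 : a • e₂ + b • e₂ + (a * b) • e₂ = 0 := by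
      rw [← add_smul, ← add_smul, hab, zero_smul]
    have a3 : a • e₃ + b • e₃ + (b * a) • e₃ = 0 := by
      rw [← add_smul, ← add_smul, mul_comm b a, hab, zero_smul]
    calc 1 + a • e₂ + b • e₃ + (b • e₂ + (a * b) • e₂) + (a • e₃ + (b * a) • e₃)
        = 1 + (a • e₂ + b • e₂ + (a * b) • e₂) + (a • e₃ + b • e₃ + (b * a) • e₃) := by abel
      _ = 1 := by rw [a2, a3, add_zero, add_zero]
  have mD : ∀ a b : ℝ, 1 + a • e₂ + b • e₃ ∈ N := fun a b =>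
    add_mem (add_mem (one_mem N) (real_smul_mem a n₂)) (real_smul_mem b n₃)
  rw [re_trace_log_LDU hτ β₁ β₂ (1 + (q - 1) • e₂ + (q⁻¹ - 1) • e₃) (1 + (q⁻¹ - 1) • e₂ + (q - 1) • e₃)
    m₁ m₂ (mD _ _) (mD _ _) hβ₁ hβ₂ hτ₁ hτ₂ (key _ _ hz) (key _ _ hz'),
    log_star_mul_self_of_proj e₂ e₃ s₂ s₃ i₂ i₃ h23 h32 q hq, ← Complex.coe_smul, map_smul, map_sub,
    smul_eq_mul, Complex.re_ofReal_mul, Complex.sub_re]

end Claimed.Agent.R117
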