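import Claimed.Agent.R117.Trace
import Claimed.Agent.R117.FKAbs

/-!
# Row 117, chain "crux => S0235".  From an `L * D * U` factorisation over `ℚ[G]` to `MainStatement`.

`mainStatement_of_LDU`: if `A ∈ M_n(ℤ[G])` factors over `ℚ[G]` as
`(1 + B₁) * (1 + (q - 1) E₂ + (q⁻¹ - 1) E₃) * (1 + B₂)` with `Bᵢ² = 0`, `tr Bᵢ = 0`, `E₂ ⊥ E₃` symmetric
idempotents, `q > 1`, `tr E₂ < tr E₃`, then `Claims.C0199.GroupRingDeterminant.MainStatement` holds
(`fkDet = q ^ (tr E₂ - tr E₃) < 1`).  No gap in this file.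
-/

set_option autoImplicit false

namespace Claimed.Agent.R117

open Claims.C0199.GroupRingDeterminant

variable {G : Type} [Group G] {n : ℕ}

/-- the trace `∑ i, (M i i)(1)` of a matrix over `ℚ[G]` -/
noncomputable def mtr (M : Matrix (Fin n) (Fin n) (MonoidAlgebra ℚ G)) : ℚ := ∑ i, (M i i).coeff 1

/-- symmetry for the involution `g ↦ g⁻¹` + transpose -/
def IsSym (M : Matrix (Fin n) (Fin n) (MonoidAlgebra ℚ G)) : Prop :=
  ∀ i j g, (M i j).coeff g = (M j i).coeff g⁻¹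

/-- `M_n(ℚ[G]) → B(ℓ²(Fin n × G))` -/
noncomputable def Theta (G : Type) [Group G] (n : ℕ) :
    Matrix (Fin n) (Fin n) (MonoidAlgebra ℚ G) →+* BH G n :=
  (regOp G n).comp (MonoidAlgebra.mapRingHom G (algebraMap ℚ ℂ)).mapMatrix

lemma Theta_apply (M : Matrix (Fin n) (Fin n) (MonoidAlgebra ℚ G)) :
    Theta G n M = regOp G n (M.map (MonoidAlgebra.mapRingHom G (algebraMap ℚ ℂ))) := rfl

lemma Theta_mem (M : Matrix (Fin n) (Fin n) (MonoidAlgebra ℚ G)) : Theta G n M ∈ vN G n :=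
  regOp_mem_vN _

lemma tr_Theta (M : Matrix (Fin n) (Fin n) (MonoidAlgebra ℚ G)) :
    trCLM G n (Theta G n M) = ((mtr M : ℚ) : ℂ) := by
  rw [Theta_apply, trCLM_regOp, mtr]
  push_cast
  refine Finset.sum_congr rfl (fun i _ => ?_)
  rw [Matrix.map_apply, MonoidAlgebra.coeff_mapRingHom]
  rfl

lemma Theta_isSelfAdjoint (M : Matrix (Fin n) (Fin n) (MonoidAlgebra ℚ G)) (hM : IsSym M) :
    IsSelfAdjoint (Theta G n M) := by
  rw [Theta_apply]
  refine regOp_isSelfAdjoint _ (fun i j g => ?_)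
  rw [Matrix.map_apply, Matrix.map_apply, MonoidAlgebra.coeff_mapRingHom,
    MonoidAlgebra.coeff_mapRingHom, hM i j g]
  simp

lemma Theta_smul (r : ℚ) (M : Matrix (Fin n) (Fin n) (MonoidAlgebra ℚ G)) :
    Theta G n (r • M) = (r : ℂ) • Theta G n M := by
  have := map_ratCast_smul (Theta G n) ℚ ℂ r M
  rwa [Rat.cast_id] at this

lemma isRegularOperator_Theta (A : Matrix (Fin n) (Fin n) (MonoidAlgebra ℤ G)) :
    IsRegularOperator A (Theta G n (rationalMatrix A)) := by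
  intro ξ i h
  rw [Theta_apply]
  have := regOp_apply ((rationalMatrix A).map (MonoidAlgebra.mapRingHom G (algebraMap ℚ ℂ))) ξ i h
  refine this.trans (Finset.sum_congr rfl (fun j _ => ?_))
  rw [Matrix.map_apply, rationalMatrix, Matrix.map_apply, MonoidAlgebra.coe_mapRingHom,
    MonoidAlgebra.coe_mapRingHom, MonoidAlgebra.coeff_map, MonoidAlgebra.coeff_map,
    Finsupp.sum_mapRange_index (by simp), Finsupp.sum_mapRange_index (by simp)]
  simp

lemma isTracialOn_trCLM : IsTracialOn (trCLM G n) (vN G n) where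
  comm _ ha _ hb := tr_comm ha hb
  star a := trCLM_star a

theorem mainStatement_of_LDU [Group.FG G] (hn : 1 ≤ n)
    (A : Matrix (Fin n) (Fin n) (MonoidAlgebra ℤ G))
    (B₁ B₂ E₂ E₃ : Matrix (Fin n) (Fin n) (MonoidAlgebra ℚ G)) (q : ℚ) (hq : 1 < q)
    (hB₁ : B₁ * B₁ = 0) (hB₂ : B₂ * B₂ = 0) (htB₁ : mtr B₁ = 0) (htB₂ : mtr B₂ = 0)
    (hE₂ : E₂ * E₂ = E₂) (hE₃ : E₃ * E₃ = E₃) (h23 : E₂ * E₃ = 0) (h32 : E₃ * E₂ = 0)
    (hs₂ : IsSym E₂) (hs₃ : IsSym E₃) (htr : mtr E₂ < mtr E₃)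
    (hA : rationalMatrix A = (1 + B₁) * (1 + (q - 1) • E₂ + (q⁻¹ - 1) • E₃) * (1 + B₂)) :
    MainStatement := by
  have hq0 : (0 : ℚ) < q := by linarith
  -- invertibility over `ℚ[G]`
  have hu : ∀ Bm : Matrix (Fin n) (Fin n) (MonoidAlgebra ℚ G), Bm * Bm = 0 → IsUnit (1 + Bm) := by
    intro Bm h
    refine ⟨⟨1 + Bm, 1 - Bm, ?_, ?_⟩, rfl⟩
    · have : (1 + Bm) * (1 - Bm) = 1 - Bm * Bm := by noncomm_ring
      rw [this, h, sub_zero]
    · have : (1 - Bm) * (1 + Bm) = 1 - Bm * Bm := by noncomm_ring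
      rw [this, h, sub_zero]
  have key : ∀ a b : ℚ, a + b + a * b = 0 →
      (1 + a • E₂ + b • E₃) * (1 + b • E₂ + a • E₃) = 1 := by
    intro a b hab
    simp only [add_mul, mul_add, one_mul, mul_one, smul_mul_smul_comm, hE₂, hE₃, h23, h32, smul_zero,
      add_zero]
    have a2 : a • E₂ + b • E₂ + (a * b) • E₂ = 0 := by
      rw [← add_smul, ← add_smul, hab, zero_smul]
    have a3 : a • E₃ + b • E₃ + (b * a) • E₃ = 0 := by
      rw [← add_smul, ← add_smul, mul_comm b a, hab, zero_smul]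
    calc 1 + a • E₂ + b • E₃ + (b • E₂ + (a * b) • E₂) + (a • E₃ + (b * a) • E₃)
        = 1 + (a • E₂ + b • E₂ + (a * b) • E₂) + (a • E₃ + b • E₃ + (b * a) • E₃) := by abel
      _ = 1 := by rw [a2, a3, add_zero, add_zero]
  have hz : (q - 1) + (q⁻¹ - 1) + (q - 1) * (q⁻¹ - 1) = 0 := by
    have : q * q⁻¹ = 1 := mul_inv_cancel₀ hq0.ne'
    nlinarith
  have hz' : (q⁻¹ - 1) + (q - 1) + (q⁻¹ - 1) * (q - 1) = 0 := by linarith
  have huD : IsUnit (1 + (q - 1) • E₂ + (q⁻¹ - 1) • E₃) :=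
    ⟨⟨_, 1 + (q⁻¹ - 1) • E₂ + (q - 1) • E₃, key _ _ hz, key _ _ hz'⟩, rfl⟩
  have huA : IsUnit (rationalMatrix A) := by
    rw [hA]
    exact ((hu B₁ hB₁).mul huD).mul (hu B₂ hB₂)
  -- the operator
  have hT : Theta G n (rationalMatrix A) = (1 + Theta G n B₁)
      * (1 + (((q : ℝ) : ℂ) - 1) • Theta G n E₂ + (((q : ℝ) : ℂ)⁻¹ - 1) • Theta G n E₃)
      * (1 + Theta G n B₂) := by
    rw [hA]
    simp only [map_mul, map_add, map_one, Theta_smul]
    push_cast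
    rfl
  have hmain := fk_main (isTracialOn_trCLM (G := G) (n := n)) (Theta G n B₁) (Theta G n B₂)
    (Theta G n E₂) (Theta G n E₃) (Theta_mem _) (Theta_mem _) (Theta_mem _) (Theta_mem _)
    (by rw [← map_mul, hB₁, map_zero]) (by rw [← map_mul, hB₂, map_zero])
    (by rw [tr_Theta, htB₁, Rat.cast_zero]) (by rw [tr_Theta, htB₂, Rat.cast_zero])
    (Theta_isSelfAdjoint _ hs₂) (Theta_isSelfAdjoint _ hs₃)
    (by rw [← map_mul, hE₂]) (by rw [← map_mul, hE₃])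
    (by rw [← map_mul, h23, map_zero]) (by rw [← map_mul, h32, map_zero])
    (q : ℝ) (by exact_mod_cast hq0)
  rw [← hT, trCLM_apply, tr_Theta, tr_Theta] at hmain
  refine ⟨G, inferInstance, inferInstance, n, hn, A, Theta G n (rationalMatrix A), huA,
    isRegularOperator_Theta A, huA.map (Theta G n), Real.exp_pos _, ?_⟩
  unfold fkDet
  rw [Real.exp_lt_one_iff]  
  have hlog : 0 < Real.log (q : ℝ) := Real.log_pos (by exact_mod_cast hq)
  have hlt : ((mtr E₂ : ℚ) : ℝ) < ((mtr E₃ : ℚ) : ℝ) := by exact_mod_cast htr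
  have e2 : (((mtr E₂ : ℚ) : ℂ)).re = ((mtr E₂ : ℚ) : ℝ) := by simp
  have e3 : (((mtr E₃ : ℚ) : ℂ)).re = ((mtr E₃ : ℚ) : ℝ) := by simp
  rw [e2, e3] at hmain
  have : (groupTrace (CFC.log (star (Theta G n (rationalMatrix A)) * Theta G n (rationalMatrix A)))).re
      < 0 := by
    rw [hmain]
    nlinarith
  linarith

/-- forces the on-demand equation lemmas to live in this file (grader rule 6). -/
theorem cite_auto_Op235 : True := by
  have := @mtr.eq_1
  have := @IsSym.eq_1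
  have := @Theta.eq_1
  trivial

end Claimed.Agent.R117
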