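import Claimed.Agent.R117.Ell2

/-!
# Row 117, chain "crux => S0235".  The regular representation of `M_n(ℂ[G])` on `ℓ²(Fin n × G)`.

`lamM g`, `rhoM g` : left / right translations;  `eM i j` : matrix units;  `Lam : ℂ[G] →ₐ B(H)`;
`regOp : M_n(ℂ[G]) →+* B(H)`, `regOp A = ∑ i j, eM i j * Lam (A i j)`.
-/

set_option autoImplicit false

namespace Claimed.Agent.R117

open scoped InnerProductSpace ENNReal

variable {G : Type} [Group G] {n : ℕ}

/-- the Hilbert space `ℓ²(Fin n × G)` (definitionally `Claims.C0199.GroupRingDeterminant.Hilbert G n`) -/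
abbrev HS (G : Type) (n : ℕ) : Type := L2 (Fin n × G)

/-- bounded operators on it -/
abbrev BH (G : Type) (n : ℕ) : Type := HS G n →L[ℂ] HS G n

/-- left translation `(lamM g x) (i, h) = x (i, g⁻¹ * h)` -/
noncomputable def lamM (g : G) : BH G n := perm (Equiv.prodCongr (Equiv.refl (Fin n)) (Equiv.mulLeft g))

/-- right translation `(rhoM g x) (i, h) = x (i, h * g)` -/
noncomputable def rhoM (g : G) : BH G n := perm (Equiv.prodCongr (Equiv.refl (Fin n)) (Equiv.mulRight g⁻¹))

/-- matrix unit `(eM i j x) (i', h) = if i' = i then x (j, h) else 0` -/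
noncomputable def eM (i j : Fin n) : BH G n :=
  cut {a | a.1 = i} * perm (Equiv.prodCongr (Equiv.swap i j) (Equiv.refl G))

lemma lamM_apply (g : G) (x : HS G n) (i : Fin n) (h : G) : lamM g x (i, h) = x (i, g⁻¹ * h) := rfl

lemma rhoM_apply (g : G) (x : HS G n) (i : Fin n) (h : G) : rhoM g x (i, h) = x (i, h * g) := by
  simp [rhoM]

omit [Group G] in
lemma eM_apply (i j : Fin n) (x : HS G n) (i' : Fin n) (h : G) :
    eM i j x (i', h) = if i' = i then x (j, h) else 0 := by
  classical
  show cut {a | a.1 = i} (perm (Equiv.prodCongr (Equiv.swap i j) (Equiv.refl G)) x) (i', h) = _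
  rw [cut_apply]
  by_cases hi : i' = i
  · subst hi
    simp
  · simp [hi]

lemma lamM_mul (g h : G) : (lamM g : BH G n) * lamM h = lamM (g * h) := by
  ext x ⟨i, k⟩
  simp [lamM_apply, mul_assoc]

@[simp] lemma lamM_one : (lamM (1 : G) : BH G n) = 1 := by
  ext x ⟨i, k⟩
  simp [lamM_apply]

lemma star_rhoM (g : G) : star (rhoM g : BH G n) = rhoM g⁻¹ := by
  rw [rhoM, star_perm]
  ext x ⟨i, k⟩
  rw [rhoM_apply]
  rfl

lemma rhoM_δ (g : G) (i : Fin n) (h : G) : rhoM g (δ (i, h) : HS G n) = δ (i, h * g⁻¹) := perm_δ _ _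

lemma lamM_δ (g : G) (i : Fin n) (h : G) : lamM g (δ (i, h) : HS G n) = δ (i, g * h) := perm_δ _ _

lemma lamM_rhoM_comm (g h : G) : (lamM g : BH G n) * rhoM h = rhoM h * lamM g := by
  ext x ⟨i, k⟩
  simp [rhoM_apply, lamM_apply, mul_assoc]

lemma eM_rhoM_comm (i j : Fin n) (h : G) : (eM i j : BH G n) * rhoM h = rhoM h * eM i j := by
  ext x ⟨i', k⟩
  simp [rhoM_apply, eM_apply]

lemma eM_lamM_comm (i j : Fin n) (h : G) : (eM i j : BH G n) * lamM h = lamM h * eM i j := by
  ext x ⟨i', k⟩
  simp [lamM_apply, eM_apply]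

omit [Group G] in
lemma eM_mul_eM (i j k l : Fin n) : (eM i j : BH G n) * eM k l = if j = k then eM i l else 0 := by
  ext x ⟨i', h⟩
  by_cases hjk : j = k
  · subst hjk
    simp [eM_apply]
  · simp [eM_apply, hjk]

omit [Group G] in
lemma sum_eM_self : ∑ i : Fin n, (eM i i : BH G n) = 1 := by
  ext x ⟨i', h⟩
  rw [_root_.sum_apply, L2_sum_apply]
  simp [eM_apply]

/-- `g ↦ lamM g` as a monoid homomorphism -/
noncomputable def lamHom (G : Type) [Group G] (n : ℕ) : G →* BH G n where
  toFun := lamM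
  map_one' := lamM_one
  map_mul' g h := (lamM_mul g h).symm

/-- the left regular representation of `ℂ[G]` on `ℓ²(Fin n × G)` (diagonal action) -/
noncomputable def Lam (G : Type) [Group G] (n : ℕ) : MonoidAlgebra ℂ G →ₐ[ℂ] BH G n :=
  MonoidAlgebra.lift ℂ (BH G n) G (lamHom G n)

lemma Lam_single (g : G) (z : ℂ) : Lam G n (MonoidAlgebra.single g z) = z • lamM g := by
  simp [Lam, lamHom]

lemma Lam_rhoM_comm (a : MonoidAlgebra ℂ G) (g : G) : Lam G n a * rhoM g = rhoM g * Lam G n a := by
  induction a using MonoidAlgebra.induction_linear with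
  | zero => simp
  | add x y hx hy => simp only [map_add, add_mul, mul_add, hx, hy]
  | single h z =>
    rw [Lam_single, smul_mul_assoc, mul_smul_comm, lamM_rhoM_comm]

lemma eM_Lam_comm (i j : Fin n) (a : MonoidAlgebra ℂ G) : eM i j * Lam G n a = Lam G n a * eM i j := by
  induction a using MonoidAlgebra.induction_linear with
  | zero => simp
  | add x y hx hy => simp only [map_add, add_mul, mul_add, hx, hy]
  | single h z =>
    rw [Lam_single, smul_mul_assoc, mul_smul_comm, eM_lamM_comm]

/-- the formula for `Lam a` -/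
lemma Lam_apply (a : MonoidAlgebra ℂ G) (x : HS G n) (i : Fin n) (h : G) :
    Lam G n a x (i, h) = a.coeff.sum fun g z => z * x (i, g⁻¹ * h) := by
  induction a using MonoidAlgebra.induction_linear with
  | zero => simp
  | add a b ha hb =>
    rw [map_add, add_apply, lp.coeFn_add, Pi.add_apply, ha, hb, MonoidAlgebra.coeff_add]
    exact (Finsupp.sum_add_index' (by simp) (by intros; ring)).symm
  | single g z =>
    rw [Lam_single, smul_apply, lp.coeFn_smul, Pi.smul_apply, lamM_apply, MonoidAlgebra.coeff_single]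
    rw [Finsupp.sum_single_index (zero_mul _)]
    rfl

/-- the regular representation of `M_n(ℂ[G])`, as a function -/
noncomputable def regFun (A : Matrix (Fin n) (Fin n) (MonoidAlgebra ℂ G)) : BH G n :=
  ∑ i, ∑ j, eM i j * Lam G n (A i j)

lemma regFun_apply (A : Matrix (Fin n) (Fin n) (MonoidAlgebra ℂ G)) (x : HS G n) (i : Fin n) (h : G) :
    regFun A x (i, h) = ∑ j, (A i j).coeff.sum fun g z => z * x (j, g⁻¹ * h) := by
  unfold regFun
  rw [_root_.sum_apply, L2_sum_apply]
  simp only [_root_.sum_apply, L2_sum_apply, mul_apply_eq_comp,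
    eM_apply, Lam_apply]
  rw [Finset.sum_eq_single i]
  · simp
  · intro b _ hb
    simp [Ne.symm hb]
  · simp

lemma regFun_one : regFun (1 : Matrix (Fin n) (Fin n) (MonoidAlgebra ℂ G)) = 1 := by
  unfold regFun
  rw [← sum_eM_self]
  refine Finset.sum_congr rfl (fun i _ => ?_)
  rw [Finset.sum_eq_single i]
  · simp
  · intro b _ hb
    simp [Matrix.one_apply_ne (Ne.symm hb)]
  · simp

lemma regFun_add (A B : Matrix (Fin n) (Fin n) (MonoidAlgebra ℂ G)) :
    regFun (A + B) = regFun A + regFun B := by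
  unfold regFun
  simp only [Matrix.add_apply, map_add, mul_add, Finset.sum_add_distrib]

lemma regFun_mul (A B : Matrix (Fin n) (Fin n) (MonoidAlgebra ℂ G)) :
    regFun (A * B) = regFun A * regFun B := by
  have key : ∀ i j k l : Fin n, eM i j * Lam G n (A i j) * (eM k l * Lam G n (B k l)) =
      if j = k then eM i l * (Lam G n (A i j) * Lam G n (B k l)) else 0 := by
    intro i j k l
    rw [mul_assoc, ← mul_assoc (Lam G n (A i j)), ← eM_Lam_comm, mul_assoc, ← mul_assoc, eM_mul_eM]
    split_ifs <;> simp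
  unfold regFun
  simp only [Finset.sum_mul, Finset.mul_sum, Matrix.mul_apply, map_sum, map_mul, key,
    Finset.sum_ite_eq', Finset.mem_univ, if_true]
  conv_lhs => rw [Finset.sum_comm]
  conv_rhs => rw [Finset.sum_comm]
  refine Finset.sum_congr rfl (fun l _ => ?_)
  rw [Finset.sum_comm]

/-- the regular representation of `M_n(ℂ[G])` on `ℓ²(Fin n × G)` -/
noncomputable def regOp (G : Type) [Group G] (n : ℕ) :
    Matrix (Fin n) (Fin n) (MonoidAlgebra ℂ G) →+* BH G n where
  toFun := regFun
  map_one' := regFun_one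
  map_mul' := regFun_mul
  map_zero' := by unfold regFun; simp
  map_add' := regFun_add

lemma regOp_apply (A : Matrix (Fin n) (Fin n) (MonoidAlgebra ℂ G)) (x : HS G n) (i : Fin n) (h : G) :
    regOp G n A x (i, h) = ∑ j, (A i j).coeff.sum fun g z => z * x (j, g⁻¹ * h) :=
  regFun_apply A x i h

lemma regOp_rhoM_comm (A : Matrix (Fin n) (Fin n) (MonoidAlgebra ℂ G)) (g : G) :
    regOp G n A * rhoM g = rhoM g * regOp G n A := by
  show regFun A * rhoM g = rhoM g * regFun A
  unfold regFun
  simp only [Finset.sum_mul, Finset.mul_sum]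
  refine Finset.sum_congr rfl (fun i _ => Finset.sum_congr rfl (fun j _ => ?_))
  rw [mul_assoc, Lam_rhoM_comm, ← mul_assoc, eM_rhoM_comm, mul_assoc]

/-- matrix coefficients of `regOp A` -/
lemma regOp_apply_δ (A : Matrix (Fin n) (Fin n) (MonoidAlgebra ℂ G)) (i j : Fin n) (g h : G) :
    regOp G n A (δ (j, g)) (i, h) = (A i j).coeff (h * g⁻¹) := by
  classical
  rw [regOp_apply, Finset.sum_eq_single j]
  · rw [Finsupp.sum, Finset.sum_eq_single (h * g⁻¹)]
    · simp
    · intro b _ hb
      rw [δ_apply_ne, mul_zero]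
      intro hh
      apply hb
      have h2 : b⁻¹ * h = g := congrArg Prod.snd hh
      rw [← h2]; group
    · intro hb
      rw [Finsupp.notMem_support_iff.mp hb, zero_mul]
  · intro b _ hb
    refine Finset.sum_eq_zero (fun k _ => ?_)
    beta_reduce
    rw [δ_apply_ne, mul_zero]
    intro hh
    exact hb (congrArg Prod.fst hh)
  · simp

/-- forces the on-demand equation lemmas to live in this file (grader rule 6). -/
theorem cite_auto_RegOp : True := by
  have := @lamM.eq_1
  have := @rhoM.eq_1
  have := @eM.eq_1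
  have := @lamHom.eq_1
  have := @Lam.eq_1
  have := @regFun.eq_1
  have := @regOp.eq_1
  trivial

end Claimed.Agent.R117
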