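import Claimed.Agent.R117.Alg235

/-!
# Row 117, chain "crux => S0235".  Norm element of a finite subgroup, reduction mod `p`, lifting to `ℤ[G]`.

`mainStatement_of_matrix_P0` : `G` f.g., `H ≤ G` finite, `|H| ≥ 2` prime to `p`, `X C ∈ M_k(𝔽_p[G])` with
`X * C = 1` and `g • C = C` for `g ∈ H`  ⟹  `MainStatement` (S0235).
-/

set_option autoImplicit false

namespace Claimed.Agent.R117

open Claims.C0199.GroupRingDeterminant

variable {G : Type} [Group G]

/-- the norm element `∑_{g ∈ H} g` of a finite subgroup -/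
noncomputable def normEl (S : Type) [Semiring S] (H : Subgroup G) [Fintype H] : MonoidAlgebra S G :=
  ∑ g : H, MonoidAlgebra.of S G (g : G)

section normEl

variable {S : Type} [Semiring S] (H : Subgroup G) [Fintype H]

lemma normEl_mul_of_fixed (c : MonoidAlgebra S G) (hc : ∀ g ∈ H, MonoidAlgebra.of S G g * c = c) :
    normEl S H * c = Fintype.card H • c := by
  unfold normEl
  rw [Finset.sum_mul, Finset.sum_congr rfl (fun (g : H) _ => hc g g.2), Finset.sum_const, Finset.card_univ]

lemma of_mul_normEl (a : G) (ha : a ∈ H) : MonoidAlgebra.of S G a * normEl S H = normEl S H := by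
  unfold normEl
  rw [Finset.mul_sum]
  refine Fintype.sum_equiv (Equiv.mulLeft (⟨a, ha⟩ : H)) _ _ (fun g => ?_)
  rw [← map_mul]
  rfl

lemma normEl_mul_self : normEl S H * normEl S H = Fintype.card H • normEl S H :=
  normEl_mul_of_fixed H _ (of_mul_normEl H)

open Classical in
lemma coeff_normEl (g : G) : (normEl S H).coeff g = if g ∈ H then 1 else 0 := by
  unfold normEl
  have : ∀ x : H, (MonoidAlgebra.of S G (x : G)).coeff g = if (x : G) = g then 1 else 0 := by
    intro x
    rw [MonoidAlgebra.of_apply, MonoidAlgebra.coeff_single, Finsupp.single_apply]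
  have h2 : (∑ x : H, MonoidAlgebra.of S G (x : G)).coeff g
      = ∑ x : H, (MonoidAlgebra.of S G (x : G)).coeff g := by
    rw [MonoidAlgebra.coeff_sum, Finsupp.finsetSum_apply]
  rw [h2, Finset.sum_congr rfl (fun x _ => this x)]
  by_cases hg : g ∈ H
  · rw [if_pos hg, Finset.sum_eq_single (⟨g, hg⟩ : H)]
    · simp
    · intro b _ hb
      rw [if_neg]
      intro h
      exact hb (Subtype.ext h)
    · simp
  · rw [if_neg hg]
    refine Finset.sum_eq_zero (fun x _ => ?_)
    rw [if_neg]
    rintro rfl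
    exact hg x.2

lemma map_normEl {S' : Type} [Semiring S'] (f : S →+* S') :
    MonoidAlgebra.mapRingHom G f (normEl S H) = normEl S' H := by
  unfold normEl
  rw [map_sum]
  refine Finset.sum_congr rfl (fun g _ => ?_)
  rw [MonoidAlgebra.of_apply, MonoidAlgebra.mapRingHom_single, map_one, MonoidAlgebra.of_apply]

end normEl

/-- reduction mod `p` of matrices over `ℤ[G]` -/
noncomputable def redM (G : Type) [Group G] (p k : ℕ) :
    Matrix (Fin k) (Fin k) (MonoidAlgebra ℤ G) →+* Matrix (Fin k) (Fin k) (MonoidAlgebra (ZMod p) G) :=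
  (MonoidAlgebra.mapRingHom G (Int.castRingHom (ZMod p))).mapMatrix

lemma redM_surjective (p k : ℕ) : Function.Surjective (redM G p k) := by
  intro Y
  have hs : Function.Surjective (MonoidAlgebra.mapRingHom G (Int.castRingHom (ZMod p))) :=
    MonoidAlgebra.map_surjective _ ZMod.intCast_surjective
  choose g hg using hs
  refine ⟨Y.map g, ?_⟩
  ext i j : 1
  exact hg (Y i j)

lemma exists_eq_smul_of_red_eq_zero (p : ℕ) (a : MonoidAlgebra ℤ G)
    (ha : MonoidAlgebra.mapRingHom G (Int.castRingHom (ZMod p)) a = 0) :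
    ∃ w : MonoidAlgebra ℤ G, a = (p : ℤ) • w := by
  refine ⟨MonoidAlgebra.ofCoeff (a.coeff.mapRange (fun z => z / (p : ℤ)) (by simp)), ?_⟩
  apply MonoidAlgebra.ext
  ext g
  have h1 : ((a.coeff g : ℤ) : ZMod p) = 0 := by
    have := congrArg (fun x => x.coeff g) ha
    simpa [MonoidAlgebra.coeff_mapRingHom] using this
  have h2 : (p : ℤ) ∣ a.coeff g := (ZMod.intCast_zmod_eq_zero_iff_dvd _ _).mp h1
  rw [MonoidAlgebra.coeff_smul, Finsupp.smul_apply]
  show a.coeff g = (p : ℤ) • (a.coeff g / (p : ℤ))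
  rw [smul_eq_mul, Int.mul_ediv_cancel' h2]

lemma exists_eq_smul_of_redM_eq_zero (p k : ℕ) (Y : Matrix (Fin k) (Fin k) (MonoidAlgebra ℤ G))
    (hY : redM G p k Y = 0) : ∃ W, Y = (p : ℤ) • W := by
  have : ∀ i j, ∃ w : MonoidAlgebra ℤ G, Y i j = (p : ℤ) • w := by
    intro i j
    apply exists_eq_smul_of_red_eq_zero
    exact congrFun (congrFun hY i) j
  choose W hW using this
  exact ⟨Matrix.of W, by ext i j : 1; exact hW i j⟩

theorem mainStatement_of_matrix_P0 [Group.FG G] (p : ℕ) (hp : p.Prime) (H : Subgroup G) [Fintype H]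
    (hH : 2 ≤ Fintype.card H) (hcop : Nat.Coprime p (Fintype.card H)) {k : ℕ} (hk : 0 < k)
    (X C : Matrix (Fin k) (Fin k) (MonoidAlgebra (ZMod p) G)) (hXC : X * C = 1)
    (hC : ∀ g ∈ H, Matrix.scalar (Fin k) (MonoidAlgebra.of (ZMod p) G g) * C = C) :
    MainStatement := by
  classical
  obtain ⟨X₀, rfl⟩ := redM_surjective p k X
  obtain ⟨C₀, rfl⟩ := redM_surjective p k C
  set ℓ := Fintype.card H with hℓ
  set Nz := normEl ℤ H with hNz
  have hredN : redM G p k (Matrix.scalar (Fin k) Nz) = Matrix.scalar (Fin k) (normEl (ZMod p) H) := by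
    ext i j : 1
    show MonoidAlgebra.mapRingHom G (Int.castRingHom (ZMod p)) (Matrix.scalar (Fin k) Nz i j) = _
    rw [Matrix.scalar_apply, Matrix.scalar_apply, Matrix.diagonal_apply, Matrix.diagonal_apply]
    split_ifs
    · exact map_normEl H _
    · exact map_zero _
  have hNC : Matrix.scalar (Fin k) (normEl (ZMod p) H) * redM G p k C₀ = ℓ • redM G p k C₀ := by
    unfold normEl
    rw [map_sum, Finset.sum_mul, Finset.sum_congr rfl (fun (g : H) _ => hC g g.2), Finset.sum_const,
      Finset.card_univ]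
  have hred : redM G p k (X₀ * Matrix.scalar (Fin k) Nz * C₀ - (ℓ : ℤ) • 1) = 0 := by
    rw [map_sub, map_mul, map_mul, hredN, mul_assoc, hNC, mul_smul_comm, hXC, map_zsmul, map_one,
      natCast_zsmul, sub_self]
  obtain ⟨W, hW⟩ := exists_eq_smul_of_redM_eq_zero p k _ hred
  obtain ⟨q, c, X', C', δ₀, hq1, hqc, hid⟩ := exists_integral_data X₀ (Matrix.scalar (Fin k) Nz) C₀ W p ℓ hp
    (by omega) hcop (by rw [← hW]; abel)
  refine mainStatement_of_integral_data hk Nz ℓ q c hH ?_ ?_ ?_ hq1 hqc X' C' δ₀ hid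
  · rw [hNz, normEl_mul_self, natCast_zsmul]
  · rw [hNz, coeff_normEl, if_pos H.one_mem]
  · intro g
    rw [hNz, coeff_normEl, coeff_normEl]
    simp

/-- forces the on-demand equation lemmas to live in this file (grader rule 6). -/
theorem cite_auto_Sub235 : True := by
  have := @normEl.eq_1
  have := @redM.eq_1
  trivial

end Claimed.Agent.R117
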