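import Claimed.Prelude.Def_0199
import Claimed.Agent.R117.RegOp

/-!
# Row 117, chain "crux => S0235".  The trace `groupTrace` on the commutant of the right translations.
-/

set_option autoImplicit false

namespace Claimed.Agent.R117

open scoped InnerProductSpace ENNReal
open Claims.C0199.GroupRingDeterminant

variable {G : Type} [Group G] {n : ℕ}

lemma identityVector_eq (i : Fin n) : (identityVector i : Hilbert G n) = δ (i, (1 : G)) := by
  unfold identityVector δ
  congr
  exact Subsingleton.elim _ _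

lemma groupTrace_eq (T : BH G n) : groupTrace T = ∑ i, T (δ (i, 1)) (i, 1) := by
  unfold groupTrace
  refine Finset.sum_congr rfl (fun i _ => ?_)
  rw [identityVector_eq, inner_δ_left]

/-- `groupTrace` as a continuous linear functional -/
noncomputable def trCLM (G : Type) [Group G] (n : ℕ) : BH G n →L[ℂ] ℂ :=
  ∑ i : Fin n, (innerSL ℂ (δ (i, (1 : G)) : HS G n)).comp
    (ContinuousLinearMap.apply ℂ (HS G n) (δ (i, (1 : G)) : HS G n))

lemma trCLM_apply (T : BH G n) : trCLM G n T = groupTrace T := by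
  unfold trCLM
  rw [groupTrace_eq, _root_.sum_apply]
  refine Finset.sum_congr rfl (fun i _ => ?_)
  simp [inner_δ_left]

lemma trCLM_star (T : BH G n) : trCLM G n (star T) = starRingEnd ℂ (trCLM G n T) := by
  rw [trCLM_apply, trCLM_apply, groupTrace_eq, groupTrace_eq, map_sum]
  refine Finset.sum_congr rfl (fun i _ => ?_)
  rw [star_apply_δ]
  rfl

/-- the commutant of the right translations -/
noncomputable def vN (G : Type) [Group G] (n : ℕ) : StarSubalgebra ℂ (BH G n) :=
  StarSubalgebra.centralizer ℂ (Set.range (rhoM : G → BH G n))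

lemma mem_vN_iff (a : BH G n) : a ∈ vN G n ↔ ∀ g : G, a * rhoM g = rhoM g * a := by
  unfold vN
  rw [StarSubalgebra.mem_centralizer_iff]
  constructor
  · intro h g
    exact ((h (rhoM g) ⟨g, rfl⟩).1).symm
  · rintro h _ ⟨g, rfl⟩
    refine ⟨(h g).symm, ?_⟩
    rw [star_rhoM]
    exact (h g⁻¹).symm

lemma regOp_mem_vN (A : Matrix (Fin n) (Fin n) (MonoidAlgebra ℂ G)) : regOp G n A ∈ vN G n :=
  (mem_vN_iff _).2 (regOp_rhoM_comm A)

/-- the trace of a matrix over the group ring -/
lemma trCLM_regOp (A : Matrix (Fin n) (Fin n) (MonoidAlgebra ℂ G)) :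
    trCLM G n (regOp G n A) = ∑ i, (A i i).coeff 1 := by
  rw [trCLM_apply, groupTrace_eq]
  refine Finset.sum_congr rfl (fun i _ => ?_)
  rw [regOp_apply_δ]
  simp

/-- a matrix which is symmetric for the involution `g ↦ g⁻¹`, transpose, conjugation gives a self-adjoint operator -/
lemma regOp_isSelfAdjoint (A : Matrix (Fin n) (Fin n) (MonoidAlgebra ℂ G))
    (hA : ∀ i j g, (A i j).coeff g = starRingEnd ℂ ((A j i).coeff g⁻¹)) :
    IsSelfAdjoint (regOp G n A) := by
  refine op_ext_matrix ?_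
  rintro ⟨j, g⟩ ⟨i, h⟩
  rw [star_apply_δ, regOp_apply_δ, regOp_apply_δ, hA i j]
  simp

/-- matrix coefficients of an operator commuting with the right translations -/
lemma apply_δ_apply {a : BH G n} (ha : a ∈ vN G n) (i j : Fin n) (g k : G) :
    a (δ (j, g)) (i, k) = a (δ (j, 1)) (i, k * g⁻¹) := by
  have ha' := (mem_vN_iff a).1 ha
  have h1 : (δ (j, g) : HS G n) = rhoM g⁻¹ (δ (j, 1)) := by rw [rhoM_δ, inv_inv, one_mul]
  have h2 : a (rhoM g⁻¹ (δ (j, 1))) = rhoM g⁻¹ (a (δ (j, 1))) :=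
    congrArg (fun T : BH G n => T (δ (j, 1))) (ha' g⁻¹)
  rw [h1, h2, rhoM_apply]

lemma star_apply_one {a : BH G n} (ha : a ∈ vN G n) (i j : Fin n) (g : G) :
    (star a) (δ (i, 1)) (j, g) = star (a (δ (j, 1)) (i, g⁻¹)) := by
  rw [star_apply_δ, apply_δ_apply ha, one_mul]

lemma tr_mul_eq {a : BH G n} (ha : a ∈ vN G n) (b : BH G n) :
    trCLM G n (a * b) = ∑ i, ∑ j, ∑' g : G, a (δ (j, 1)) (i, g⁻¹) * b (δ (i, 1)) (j, g) := by
  rw [trCLM_apply, groupTrace_eq]
  refine Finset.sum_congr rfl (fun i _ => ?_)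
  have h1 : (a * b) (δ (i, 1)) (i, 1) = ⟪(star a) (δ (i, 1)), b (δ (i, 1))⟫_ℂ := by
    rw [← inner_δ_left, mul_apply_eq_comp, ContinuousLinearMap.star_eq_adjoint,
      ContinuousLinearMap.adjoint_inner_left]
  have hs : Summable (fun p : Fin n × G => ⟪(star a) (δ (i, 1)) p, b (δ (i, 1)) p⟫_ℂ) :=
    lp.summable_inner (𝕜 := ℂ) ((star a) (δ (i, 1))) (b (δ (i, 1)))
  rw [h1, lp.inner_eq_tsum, hs.tsum_prod, tsum_fintype]
  refine Finset.sum_congr rfl (fun j _ => ?_)
  congr 1
  ext g
  rw [star_apply_one ha]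
  simp [mul_comm]

/-- `groupTrace` is a trace on the commutant of the right translations. -/
theorem tr_comm {a b : BH G n} (ha : a ∈ vN G n) (hb : b ∈ vN G n) :
    trCLM G n (a * b) = trCLM G n (b * a) := by
  rw [tr_mul_eq ha, tr_mul_eq hb, Finset.sum_comm]
  refine Finset.sum_congr rfl (fun i _ => Finset.sum_congr rfl (fun j _ => ?_))
  rw [← (Equiv.inv G).tsum_eq]
  congr 1
  ext g
  simp [mul_comm]

/-- forces the on-demand equation lemmas to live in this file (grader rule 6). -/
theorem cite_auto_Trace : True := by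
  have := @trCLM.eq_1
  have := @vN.eq_1
  trivial

end Claimed.Agent.R117
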